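import Vale.Agent.Lib.helper23.PT

/-! Binary arithmetic and list operations in polynomial time. -/

namespace Vale.Agent.Lib.H23

open Polynomial Enc

variable {α β γ δ σ : Type} [Enc α] [Enc β] [Enc γ] [Enc δ] [Enc σ]

theorem sz_nat_eq (n : ℕ) : sz n = sz n.bits := rfl

theorem sz_nat_le {n k : ℕ} (h : n < 2 ^ k) : sz n ≤ 4 * k + 1 := by
  have h1 : sz n.bits ≤ n.bits.length * (3 + 1) + 1 := sz_list_le (fun a _ => sz_bool a)
  rw [Nat.size_eq_bits_len] at h1
  have := Nat.size_le.2 h
  rw [sz_nat_eq]
  omega

theorem size_lt_sz (n : ℕ) : n.size < sz n := by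
  rw [← Nat.size_eq_bits_len]; exact length_lt_sz n.bits

theorem lt_two_pow_sz (n : ℕ) : n < 2 ^ sz n :=
  lt_of_lt_of_le (Nat.lt_size_self n) (Nat.pow_le_pow_right (by omega) (size_lt_sz n).le)

theorem sz_int_eq (z : ℤ) : sz z = sz (decide (z < 0), z.natAbs) := rfl

theorem sz_int_le {z : ℤ} {k : ℕ} (h : z.natAbs < 2 ^ k) : sz z ≤ 4 * k + 5 := by
  rw [sz_int_eq, sz_pair]
  have := sz_nat_le h
  have := sz_bool (decide (z < 0))
  omega

theorem natAbs_lt_two_pow_sz (z : ℤ) : z.natAbs < 2 ^ sz z := by
  refine lt_of_lt_of_le (lt_two_pow_sz z.natAbs) (Nat.pow_le_pow_right (by omega) ?_)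
  rw [sz_int_eq, sz_pair]; omega

@[fun_prop] theorem PT.bits {f : α → ℕ} (hf : PT f) : PT (fun x => (f x).bits) :=
  hf.of_enc (fun _ => rfl)

@[fun_prop] theorem PT.div2 {f : α → ℕ} (hf : PT f) : PT (fun x => (f x).div2) :=
  (PT.tail hf.bits).of_enc (fun x => by rw [enc_nat, Nat.div2_bits_eq_tail])

theorem sz_div2_le (n : ℕ) : sz n.div2 ≤ sz n := by
  rw [sz_nat_eq, sz_nat_eq, Nat.div2_bits_eq_tail]; exact sz_tail_le _

@[fun_prop] theorem PT.bodd {f : α → ℕ} (hf : PT f) : PT (fun x => (f x).bodd) := by
  refine (PT.headD hf.bits (PT.const false)).congr (fun x => ?_)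
  rw [Nat.bodd_eq_bits_head]
  cases (f x).bits <;> rfl

theorem bits_eq_nil {n : ℕ} : n.bits = [] ↔ n = 0 := by
  rw [← List.length_eq_zero_iff, Nat.size_eq_bits_len, Nat.size_eq_zero]

theorem bits_bit (b : Bool) (n : ℕ) :
    (Nat.bit b n).bits = bif (n.bits.isEmpty && !b) then [] else b :: n.bits := by
  by_cases h : n = 0 → b = true
  · rw [Nat.bits_append_bit n b h]
    by_cases hn : n = 0
    · simp [h hn]
    · have : n.bits.isEmpty = false := by
        rw [List.isEmpty_eq_false_iff]; exact fun h => hn (bits_eq_nil.1 h)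
      simp [this]
  · push Not at h
    obtain ⟨rfl, hb⟩ := h
    cases b <;> simp_all

@[fun_prop] theorem PT.bit {b : α → Bool} {f : α → ℕ} (hb : PT b) (hf : PT f) :
    PT (fun x => Nat.bit (b x) (f x)) := by
  have : PT (fun x => (bif ((f x).bits.isEmpty && !(b x)) then [] else b x :: (f x).bits :
      List Bool)) := by fun_prop
  exact this.of_enc (fun x => by rw [enc_nat, bits_bit])

theorem sz_bit_le (b : Bool) (n : ℕ) : sz (Nat.bit b n) ≤ sz n + 4 := by
  rw [sz_nat_eq, sz_nat_eq, bits_bit]
  have := sz_bool b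
  have := sz_pos n.bits
  cases (n.bits.isEmpty && !b)
  · simp; omega
  · simp

/-- value of a list of bits, most significant first -/
def valMSB (l : List Bool) : ℕ := l.foldl (fun n b => Nat.bit b n) 0

@[fun_prop] theorem PT.valMSB {l : α → List Bool} (hl : PT l) : PT (fun x => valMSB (l x)) :=
  PT.foldl' (f := fun _ n b => Nat.bit b n) (by fun_prop) hl (PT.const 0)
    ⟨4, fun x s a => by simpa using sz_bit_le a s⟩

theorem foldl_bit (l : List Bool) (m : ℕ) :
    l.foldl (fun n b => Nat.bit b n) m = m * 2 ^ l.length + valMSB l := by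
  induction l generalizing m with
  | nil => simp [valMSB]
  | cons b l ih =>
    simp only [valMSB, List.foldl_cons, List.length_cons]
    rw [ih, ih, Nat.bit_val, Nat.bit_val]
    ring

theorem valMSB_cons (b : Bool) (l : List Bool) :
    valMSB (b :: l) = b.toNat * 2 ^ l.length + valMSB l := by
  have := foldl_bit l (Nat.bit b 0)
  rw [Nat.bit_val] at this
  simpa [valMSB, Nat.bit_val] using this

theorem valMSB_lt (l : List Bool) : valMSB l < 2 ^ l.length := by
  induction l with
  | nil => simp [valMSB]
  | cons b l ih =>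
    rw [valMSB_cons, List.length_cons, pow_succ]
    cases b <;> simp <;> omega

@[fun_prop] theorem PT.reverseAux {l m : α → List β} (hl : PT l) (hm : PT m) :
    PT (fun x => List.reverseAux (l x) (m x)) := by
  refine (PT.foldl' (f := fun _ s a => a :: s) (by fun_prop) hl hm
    ⟨X + 1, fun x s a => by simp; omega⟩).congr (fun x => ?_)
  generalize l x = l
  generalize m x = m
  induction l generalizing m with
  | nil => rfl
  | cons a l ih => simp only [List.reverseAux, List.foldl_cons, ih]

@[fun_prop] theorem PT.reverse {l : α → List β} (hl : PT l) : PT (fun x => (l x).reverse) :=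
  PT.reverseAux hl (PT.const [])

@[fun_prop] theorem PT.append {l m : α → List β} (hl : PT l) (hm : PT m) :
    PT (fun x => l x ++ m x) :=
  (PT.reverseAux hl.reverse hm).congr (fun x => by simp [List.reverseAux_eq])

/-- one round of a digit by digit computation with carry -/
def digStep (o c : Bool → Bool → Bool → Bool) (s : ℕ × ℕ × Bool × List Bool) :
    ℕ × ℕ × Bool × List Bool :=
  (s.1.div2, s.2.1.div2, c s.1.bodd s.2.1.bodd s.2.2.1, o s.1.bodd s.2.1.bodd s.2.2.1 :: s.2.2.2)

def digRun (o c : Bool → Bool → Bool → Bool) (x y : ℕ) : ℕ × ℕ × Bool × List Bool :=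
  (false :: (x.bits ++ y.bits)).foldl (fun s _ => digStep o c s) (x, y, false, [])

theorem PT.bool3 (o : Bool → Bool → Bool → Bool) {a b c : α → Bool} (ha : PT a) (hb : PT b)
    (hc : PT c) : PT (fun x => o (a x) (b x) (c x)) := by
  have : PT (fun x => bif a x then (bif b x then (bif c x then o true true true
      else o true true false) else (bif c x then o true false true else o true false false))
      else (bif b x then (bif c x then o false true true else o false true false)
      else (bif c x then o false false true else o false false false))) := by fun_prop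
  refine this.congr (fun x => ?_)
  cases a x <;> cases b x <;> cases c x <;> rfl

theorem PT.digRun (o c : Bool → Bool → Bool → Bool) {f g : α → ℕ} (hf : PT f) (hg : PT g) :
    PT (fun x => digRun o c (f x) (g x)) := by
  refine PT.foldl' (f := fun _ s (_ : Bool) => digStep o c s) ?_ (by fun_prop) (by fun_prop)
    ⟨8, fun x s a => ?_⟩
  · unfold digStep
    refine PT.pair (by fun_prop) (PT.pair (by fun_prop) (PT.pair ?_ (PT.cons ?_ (by fun_prop))))
    · exact PT.bool3 c (by fun_prop) (by fun_prop) (by fun_prop)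
    · exact PT.bool3 o (by fun_prop) (by fun_prop) (by fun_prop)
  · obtain ⟨x, y, b, l⟩ := s
    have h1 := sz_div2_le x
    have h2 := sz_div2_le y
    have h3 := sz_bool (c x.bodd y.bodd b)
    have h4 := sz_bool (o x.bodd y.bodd b)
    have h5 := sz_pos b
    simp only [digStep, sz_pair, sz_cons, eval_ofNat]
    omega

theorem dig_inv (o c : Bool → Bool → Bool → Bool) (e : ℤ)
    (h : ∀ a b d : Bool, ((o a b d).toNat : ℤ) + 2 * e * (c a b d).toNat =
      a.toNat + e * b.toNat + e * d.toNat) (l : List Bool) :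
    ∀ (x y : ℕ) (d : Bool) (acc : List Bool), x < 2 ^ l.length → y < 2 ^ l.length →
    (l.foldl (fun s _ => digStep o c s) (x, y, d, acc)).2.2.2.length = acc.length + l.length ∧
    (valMSB (l.foldl (fun s _ => digStep o c s) (x, y, d, acc)).2.2.2 : ℤ) +
      2 ^ (acc.length + l.length) * e *
        (l.foldl (fun s _ => digStep o c s) (x, y, d, acc)).2.2.1.toNat =
      valMSB acc + 2 ^ acc.length * (x + e * y + e * d.toNat) := by
  induction l with
  | nil =>
    intro x y d acc hx hy
    have hx0 : x = 0 := by simpa using hx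
    have hy0 : y = 0 := by simpa using hy
    subst hx0 hy0
    simp [mul_assoc]
  | cons b l ih =>
    intro x y d acc hx hy
    rw [List.length_cons, pow_succ] at hx hy
    have ex := Nat.bodd_add_div2 x
    have ey := Nat.bodd_add_div2 y
    obtain ⟨i1, i2⟩ := ih x.div2 y.div2 (c x.bodd y.bodd d) (o x.bodd y.bodd d :: acc)
      (by omega) (by omega)
    simp only [List.foldl_cons, List.length_cons] at i1 i2 ⊢
    refine ⟨by rw [show digStep o c (x, y, d, acc) = (x.div2, y.div2, c x.bodd y.bodd d,
      o x.bodd y.bodd d :: acc) from rfl, i1]; omega, ?_⟩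
    rw [show digStep o c (x, y, d, acc) = (x.div2, y.div2, c x.bodd y.bodd d,
      o x.bodd y.bodd d :: acc) from rfl, show acc.length + (l.length + 1) =
        acc.length + 1 + l.length by omega, i2, valMSB_cons]
    have ex' : (x : ℤ) = x.bodd.toNat + 2 * x.div2 := by exact_mod_cast ex.symm
    have ey' : (y : ℤ) = y.bodd.toNat + 2 * y.div2 := by exact_mod_cast ey.symm
    have := h x.bodd y.bodd d
    push_cast
    rw [pow_succ]
    linear_combination (2 : ℤ) ^ acc.length * this - 2 ^ acc.length * ex' -
      2 ^ acc.length * e * ey'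

theorem dig_run (o c : Bool → Bool → Bool → Bool) (e : ℤ)
    (h : ∀ a b d : Bool, ((o a b d).toNat : ℤ) + 2 * e * (c a b d).toNat =
      a.toNat + e * b.toNat + e * d.toNat) (x y : ℕ) :
    ∃ k : ℕ, x + y < 2 ^ k ∧ valMSB (digRun o c x y).2.2.2 < 2 ^ k ∧
      (valMSB (digRun o c x y).2.2.2 : ℤ) + 2 ^ k * e * (digRun o c x y).2.2.1.toNat = x + e * y := by
  have hx : x < 2 ^ (x.size + y.size) :=
    lt_of_lt_of_le (Nat.lt_size_self x) (Nat.pow_le_pow_right (by omega) (by omega))
  have hy : y < 2 ^ (x.size + y.size) :=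
    lt_of_lt_of_le (Nat.lt_size_self y) (Nat.pow_le_pow_right (by omega) (by omega))
  have hl : (false :: (x.bits ++ y.bits)).length = x.size + y.size + 1 := by
    simp [Nat.size_eq_bits_len]
  obtain ⟨i1, i2⟩ := dig_inv o c e h (false :: (x.bits ++ y.bits)) x y false []
    (by rw [hl, pow_succ]; omega) (by rw [hl, pow_succ]; omega)
  refine ⟨x.size + y.size + 1, by rw [pow_succ]; omega, ?_, ?_⟩
  · have := valMSB_lt (digRun o c x y).2.2.2
    unfold digRun at this ⊢
    rw [i1, hl] at this
    simpa using this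
  · unfold digRun
    rw [hl] at i2
    simpa [valMSB] using i2

def addO (a b d : Bool) : Bool := xor a (xor b d)
def addC (a b d : Bool) : Bool := (a && b) || (d && (a || b))
def subC (a b d : Bool) : Bool := (!a && (b || d)) || (b && d)

theorem add_dig (x y : ℕ) : x + y = valMSB (digRun addO addC x y).2.2.2 := by
  obtain ⟨k, h1, h2, h3⟩ := dig_run addO addC 1 (by decide) x y
  have h4 : ((x + y : ℕ) : ℤ) < 2 ^ k := by exact_mod_cast h1
  have h5 : (0 : ℤ) ≤ valMSB (digRun addO addC x y).2.2.2 := Int.natCast_nonneg _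
  cases hb : (digRun addO addC x y).2.2.1
  · rw [hb] at h3; simp at h3; exact_mod_cast h3.symm
  · rw [hb] at h3; simp at h3; push_cast at h4; omega

theorem sub_dig (x y : ℕ) : ((digRun addO subC x y).2.2.1 = decide (x < y)) ∧
    (y ≤ x → x - y = valMSB (digRun addO subC x y).2.2.2) := by
  obtain ⟨k, h1, h2, h3⟩ := dig_run addO subC (-1) (by decide) x y
  have h4 : (valMSB (digRun addO subC x y).2.2.2 : ℤ) < 2 ^ k := by exact_mod_cast h2
  have h5 : (0 : ℤ) ≤ valMSB (digRun addO subC x y).2.2.2 := Int.natCast_nonneg _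
  cases hb : (digRun addO subC x y).2.2.1
  · rw [hb] at h3; simp at h3
    constructor
    · simp; omega
    · intro; omega
  · rw [hb] at h3; simp at h3
    constructor
    · simp; omega
    · intro; omega

@[fun_prop] theorem PT.add {f g : α → ℕ} (hf : PT f) (hg : PT g) : PT (fun x => f x + g x) :=
  (PT.valMSB (PT.digRun addO addC hf hg).snd.snd.snd).congr (fun _ => add_dig _ _)

/-- Boolean comparison of naturals -/
def ltb (x y : ℕ) : Bool := decide (x < y)
/-- Boolean equality of naturals -/
def eqb (x y : ℕ) : Bool := decide (x = y)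

@[simp] theorem ltb_eq (x y : ℕ) : ltb x y = decide (x < y) := rfl
@[simp] theorem eqb_eq (x y : ℕ) : eqb x y = decide (x = y) := rfl

@[fun_prop] theorem PT.ltb {f g : α → ℕ} (hf : PT f) (hg : PT g) :
    PT (fun x => ltb (f x) (g x)) :=
  (PT.digRun addO subC hf hg).snd.snd.fst.congr (fun _ => (sub_dig _ _).1.symm)

@[fun_prop] theorem PT.eqb {f g : α → ℕ} (hf : PT f) (hg : PT g) :
    PT (fun x => eqb (f x) (g x)) := by
  have : PT (fun x => !(H23.ltb (f x) (g x)) && !(H23.ltb (g x) (f x))) := by fun_prop
  refine this.congr (fun x => ?_)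
  rw [Bool.eq_iff_iff]
  simp
  omega

@[fun_prop] theorem PT.sub {f g : α → ℕ} (hf : PT f) (hg : PT g) : PT (fun x => f x - g x) := by
  refine (PT.cond (PT.ltb hf hg) (PT.const 0)
    (PT.valMSB (PT.digRun addO subC hf hg).snd.snd.snd)).congr (fun x => ?_)
  by_cases h : f x < g x
  · simp [h]; omega
  · simp [h]; exact (sub_dig _ _).2 (by omega)

theorem valMSB_reverse_bits (n : ℕ) : valMSB n.bits.reverse = n := by
  induction n using Nat.binaryRec' with
  | zero => simp [valMSB]
  | bit b n h ih =>
    rw [Nat.bits_append_bit n b h, List.reverse_cons]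
    unfold valMSB at ih ⊢
    rw [List.foldl_append, ih]
    rfl

theorem foldl_mul (a : ℕ) (l : List Bool) (m : ℕ) :
    l.foldl (fun s b => s + s + (bif b then a else 0)) (a * m) =
      a * l.foldl (fun n b => Nat.bit b n) m := by
  induction l generalizing m with
  | nil => rfl
  | cons b l ih =>
    simp only [List.foldl_cons]
    rw [← ih]
    congr 1
    cases b <;> simp [Nat.bit_val] <;> ring

@[fun_prop] theorem PT.mul {f g : α → ℕ} (hf : PT f) (hg : PT g) : PT (fun x => f x * g x) := by
  have key : PT (fun p : ℕ × ℕ => p.2.bits.reverse.foldl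
      (fun s b => s + s + (bif b then p.1 else 0)) 0) := by
    refine PT.foldl (f := fun (p : ℕ × ℕ) s b => s + s + (bif b then p.1 else 0)) (by fun_prop)
      (by fun_prop) (by fun_prop) ⟨4 * X + 1, fun p k => ?_⟩
    have h1 := foldl_mul p.1 (p.2.bits.reverse.take k) 0
    rw [mul_zero] at h1
    rw [h1]
    have h2 := valMSB_lt (p.2.bits.reverse.take k)
    have h3 : (p.2.bits.reverse.take k).length ≤ sz p.2 := by
      have := size_lt_sz p.2
      simp [Nat.size_eq_bits_len]; omega
    have h4 : p.1 * H23.valMSB (p.2.bits.reverse.take k) < 2 ^ (sz p.1 + sz p.2) := by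
      rw [pow_add]
      exact Nat.mul_lt_mul'' (lt_two_pow_sz _)
        (lt_of_lt_of_le h2 (Nat.pow_le_pow_right (by omega) h3))
    have h5 := sz_nat_le h4
    have h6 := sz_prod p
    simp only [eval_add, eval_mul, eval_ofNat, eval_X, eval_one]
    unfold H23.valMSB at h5
    omega
  refine (PT.comp key (PT.pair hf hg)).congr (fun x => ?_)
  have h1 := foldl_mul (f x) (g x).bits.reverse 0
  rw [mul_zero] at h1
  simp only [h1]
  exact congrArg _ (valMSB_reverse_bits _).symm

@[fun_prop] theorem PT.length {l : α → List β} (hl : PT l) : PT (fun x => (l x).length) := by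
  have e : ∀ (m : List β) (k : ℕ), m.foldl (fun (s : ℕ) _ => s + 1) k = k + m.length := by
    intro m
    induction m with
    | nil => simp
    | cons a m ih => intro k; simp [ih]; omega
  obtain ⟨L, hL⟩ := hl.size_le
  refine (PT.foldl (f := fun _ (s : ℕ) _ => s + 1) (by fun_prop) hl (PT.const 0)
    ⟨4 * L + 1, fun x k => ?_⟩).congr (fun x => by simp [e])
  rw [e]
  have h1 : 0 + ((l x).take k).length < 2 ^ L.eval (sz x) := by
    have := length_lt_sz (l x)
    have := hL x
    have : L.eval (sz x) < 2 ^ L.eval (sz x) := Nat.lt_two_pow_self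
    simp; omega
  simpa using sz_nat_le h1

@[fun_prop] theorem PT.size {f : α → ℕ} (hf : PT f) : PT (fun x => (f x).size) :=
  hf.bits.length.congr (fun _ => (Nat.size_eq_bits_len _).symm)

@[fun_prop] theorem PT.map {f : α → β → γ} {l : α → List β}
    (hf : PT (fun p : α × β => f p.1 p.2)) (hl : PT l) : PT (fun x => (l x).map (f x)) := by
  obtain ⟨Q, hQ⟩ := hf.size_le
  have h0 : PT (fun p : α × List γ × β => f p.1 p.2.2) :=
    PT.comp (g := fun p : α × List γ × β => (p.1, p.2.2)) hf (by fun_prop)
  refine (PT.foldl' (f := fun x s a => f x a :: s) (PT.cons h0 (by fun_prop)) hl (PT.const [])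
    ⟨Q.comp (X + 1) + 1, fun x s a => ?_⟩).reverse.congr (fun x => ?_)
  · have := hQ (x, a)
    simp only [sz_pair] at this
    simp only [sz_cons, eval_add, eval_comp, eval_X, eval_one]
    omega
  · have e : ∀ (m : List β) (s : List γ), m.foldl (fun s a => f x a :: s) s =
        (m.map (f x)).reverse ++ s := by
      intro m
      induction m with
      | nil => simp
      | cons a m ih => intro s; simp [ih]
    simp [e]

@[fun_prop] theorem PT.zip {l : α → List β} {m : α → List γ} (hl : PT l) (hm : PT m) :
    PT (fun x => (l x).zip (m x)) := by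
  let f : List (β × γ) × List γ → β → List (β × γ) × List γ := fun s a =>
    H23.lcase s.2 s (fun b t => ((a, b) :: s.1, t))
  refine (PT.foldl' (f := fun _ s a => f s a) (i := fun x => ([], m x)) ?_ hl (by fun_prop)
    ⟨X + 1, fun x s a => ?_⟩).fst.reverse.congr (fun x => ?_)
  · exact PT.lcase (by fun_prop) (by fun_prop) (by fun_prop)
  · obtain ⟨s, t⟩ := s
    cases t with
    | nil => simp [f, H23.lcase]
    | cons b t => simp [f, H23.lcase]; omega
  · have e : ∀ (l : List β) (s : List (β × γ)) (m : List γ), (l.foldl f (s, m)).1 =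
        (l.zip m).reverse ++ s := by
      intro l
      induction l with
      | nil => simp
      | cons a l ih =>
        intro s m
        cases m with
        | nil => simpa [f, H23.lcase] using ih s []
        | cons b m => simpa [f, H23.lcase] using ih ((a, b) :: s) m
    simp [e]

@[fun_prop] theorem PT.zipWith {f : α → β → γ → δ} {l : α → List β} {m : α → List γ}
    (hf : PT (fun p : α × β × γ => f p.1 p.2.1 p.2.2)) (hl : PT l) (hm : PT m) :
    PT (fun x => List.zipWith (f x) (l x) (m x)) := by
  refine (PT.map (f := fun x (q : β × γ) => f x q.1 q.2) hf (PT.zip hl hm)).congr (fun x => ?_)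
  rw [List.zip, List.map_zipWith]

@[fun_prop] theorem PT.any {f : α → β → Bool} {l : α → List β}
    (hf : PT (fun p : α × β => f p.1 p.2)) (hl : PT l) : PT (fun x => (l x).any (f x)) := by
  have h0 : PT (fun p : α × Bool × β => f p.1 p.2.2) :=
    PT.comp (g := fun p : α × Bool × β => (p.1, p.2.2)) hf (by fun_prop)
  refine (PT.foldl' (f := fun x s a => s || f x a) (PT.or (by fun_prop) h0) hl (PT.const false)
    ⟨3, fun x s a => ?_⟩).congr (fun x => ?_)
  · have := sz_bool (s || f x a); simp only [eval_ofNat]; omega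
  · have e : ∀ (m : List β) (s : Bool), m.foldl (fun s a => s || f x a) s = (s || m.any (f x)) := by
      intro m
      induction m with
      | nil => simp
      | cons a m ih => intro s; simp [ih, Bool.or_assoc]
    simp [e]

@[fun_prop] theorem PT.all {f : α → β → Bool} {l : α → List β}
    (hf : PT (fun p : α × β => f p.1 p.2)) (hl : PT l) : PT (fun x => (l x).all (f x)) := by
  refine (PT.any (f := fun x a => !(f x a)) hf.not hl).not.congr (fun x => ?_)
  simp [List.all_eq_not_any_not]

/-- drop `k` elements, `k` given in binary -/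
@[fun_prop] theorem PT.drop {l : α → List β} {k : α → ℕ} (hk : PT k) (hl : PT l) :
    PT (fun x => (l x).drop (k x)) := by
  let f : ℕ × List β → ℕ × List β := fun s => bif H23.eqb s.1 0 then s else (s.1 - 1, s.2.tail)
  have e : ∀ (m : List β) (k : ℕ) (l : List β), m.foldl (fun s _ => f s) (k, l) =
      (k - m.length, l.drop (min k m.length)) := by
    intro m
    induction m with
    | nil => simp
    | cons a m ih =>
      intro k l
      cases k with
      | zero => simpa [f] using ih 0 l
      | succ k =>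
        have : f (k + 1, l) = (k, l.tail) := by simp [f]
        rw [List.foldl_cons, this, ih]
        simp [Nat.succ_min_succ]
  obtain ⟨L, hL⟩ := hl.size_le
  obtain ⟨Q, hQ⟩ := hk.size_le
  refine (PT.foldl (f := fun _ s (_ : β) => f s) (i := fun x => (k x, l x)) (by fun_prop) hl
    (by fun_prop) ⟨4 * Q + L + 2, fun x j => ?_⟩).snd.congr (fun x => ?_)
  · rw [e]
    have h1 : k x - ((l x).take j).length < 2 ^ Q.eval (sz x) :=
      lt_of_le_of_lt (Nat.sub_le _ _) (lt_of_lt_of_le (lt_two_pow_sz _)
        (Nat.pow_le_pow_right (by omega) (hQ x)))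
    have h2 := sz_nat_le h1
    have h3 := sz_drop_le (l x) (min (k x) ((l x).take j).length)
    have h4 := hL x
    simp only [sz_pair, eval_add, eval_mul, eval_ofNat]
    omega
  · rw [e]
    by_cases h : k x ≤ (l x).length
    · rw [min_eq_left h]
    · rw [min_eq_right (by omega), List.drop_length, List.drop_eq_nil_of_le (by omega)]

@[fun_prop] theorem PT.getD {l : α → List β} {k : α → ℕ} {d : α → β} (hl : PT l) (hk : PT k)
    (hd : PT d) : PT (fun x => (l x).getD (k x) (d x)) := by
  refine (PT.headD (PT.drop hk hl) hd).congr (fun x => ?_)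
  simp [List.getD_eq_getElem?_getD, List.headD_eq_head?_getD]

/-! integers -/

@[fun_prop] theorem PT.natAbs {f : α → ℤ} (hf : PT f) : PT (fun x => (f x).natAbs) :=
  PT.snd (f := fun x => (decide (f x < 0), (f x).natAbs)) (hf.of_enc (fun _ => rfl))

/-- sign test -/
def isNeg (z : ℤ) : Bool := decide (z < 0)

@[fun_prop] theorem PT.isNeg {f : α → ℤ} (hf : PT f) : PT (fun x => isNeg (f x)) :=
  PT.fst (f := fun x => (decide (f x < 0), (f x).natAbs)) (hf.of_enc (fun _ => rfl))

@[fun_prop] theorem PT.toNat {f : α → ℤ} (hf : PT f) : PT (fun x => (f x).toNat) := by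
  refine (PT.cond hf.isNeg (PT.const 0) hf.natAbs).congr (fun x => ?_)
  by_cases h : f x < 0 <;> simp [H23.isNeg, h] <;> omega

/-- difference of naturals as an integer -/
def isub (a b : ℕ) : ℤ := (a : ℤ) - b

@[fun_prop] theorem PT.isub {f g : α → ℕ} (hf : PT f) (hg : PT g) :
    PT (fun x => isub (f x) (g x)) := by
  have : PT (fun x => (H23.ltb (f x) (g x), f x - g x + (g x - f x))) := by fun_prop
  refine this.of_enc (fun x => ?_)
  rw [enc_int]
  congr 2
  · simp [H23.isub]
  · simp only [H23.isub]; omega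

@[fun_prop] theorem PT.natCast {f : α → ℕ} (hf : PT f) : PT (fun x => ((f x : ℕ) : ℤ)) :=
  (PT.isub hf (PT.const 0)).congr (fun x => by simp [H23.isub])

@[fun_prop] theorem PT.neg {f : α → ℤ} (hf : PT f) : PT (fun x => - f x) :=
  (PT.isub (PT.sub hf.natAbs hf.toNat) hf.toNat).congr (fun x => by simp only [H23.isub]; omega)

@[fun_prop] theorem PT.iadd {f g : α → ℤ} (hf : PT f) (hg : PT g) : PT (fun x => f x + g x) :=
  (PT.isub (PT.add hf.toNat hg.toNat) (PT.add hf.neg.toNat hg.neg.toNat)).congr
    (fun x => by simp only [H23.isub]; omega)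

@[fun_prop] theorem PT.isub' {f g : α → ℤ} (hf : PT f) (hg : PT g) : PT (fun x => f x - g x) :=
  (PT.iadd hf hg.neg).congr (fun x => by omega)

@[fun_prop] theorem PT.imul {f g : α → ℤ} (hf : PT f) (hg : PT g) : PT (fun x => f x * g x) := by
  have : PT (fun x => bif (H23.isNeg (f x) ^^ H23.isNeg (g x)) then
      - (((f x).natAbs * (g x).natAbs : ℕ) : ℤ) else (((f x).natAbs * (g x).natAbs : ℕ) : ℤ)) := by
    fun_prop
  refine this.congr (fun x => ?_)
  by_cases h1 : f x < 0 <;> by_cases h2 : g x < 0 <;>
    simp [H23.isNeg, h1, h2, abs_of_neg, abs_of_nonneg, not_lt.1]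

/-- Boolean comparison of integers -/
def iltb (x y : ℤ) : Bool := decide (x < y)

@[simp] theorem iltb_eq (x y : ℤ) : iltb x y = decide (x < y) := rfl

@[fun_prop] theorem PT.iltb {f g : α → ℤ} (hf : PT f) (hg : PT g) :
    PT (fun x => iltb (f x) (g x)) :=
  (PT.isub' hf hg).isNeg.congr (fun x => by simp [H23.isNeg])

end Vale.Agent.Lib.H23
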