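import Mathlib.Computability.TuringMachine.Computable
import Mathlib.Tactic

/-! A small structured language on four binary stacks, compiled to `Turing.FinTM2`
with exact step counts. -/

namespace Vale.Agent.Lib.H23

open Turing Turing.TM2

/-- the four stacks -/
inductive K : Type
  | m | a | b | c
  deriving DecidableEq

instance : Fintype K := ⟨{K.m, K.a, K.b, K.c}, by intro x; cases x <;> simp⟩

/-- contents of the four stacks -/
structure St : Type where
  m : List Bool
  a : List Bool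
  b : List Bool
  c : List Bool

def St.get (S : St) : K → List Bool
  | K.m => S.m
  | K.a => S.a
  | K.b => S.b
  | K.c => S.c

def St.set (S : St) : K → List Bool → St
  | K.m, l => ⟨l, S.a, S.b, S.c⟩
  | K.a, l => ⟨S.m, l, S.b, S.c⟩
  | K.b, l => ⟨S.m, S.a, l, S.c⟩
  | K.c, l => ⟨S.m, S.a, S.b, l⟩

theorem St.get_set (S : St) (k : K) (l : List Bool) :
    (S.set k l).get = Function.update S.get k l := by
  funext k'
  cases k <;> cases k' <;> simp [St.get, St.set]

inductive Cmd : Type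
  | skip : Cmd
  | push : K → Bool → Cmd
  | seq : Cmd → Cmd → Cmd
  | br : K → Cmd → Cmd → Cmd → Cmd
  | loop : K → Cmd → Cmd → Cmd

/-- `Exec c S S' t`: the command `c` leads from `S` to `S'` in at most `t` steps -/
inductive Exec : Cmd → St → St → ℕ → Prop
  | skip (S : St) : Exec Cmd.skip S S 1
  | push (k : K) (x : Bool) (S : St) : Exec (Cmd.push k x) S (S.set k (x :: S.get k)) 1
  | seq {c d : Cmd} {S S' S'' : St} {t t' : ℕ} :
      Exec c S S' t → Exec d S' S'' t' → Exec (Cmd.seq c d) S S'' (t + t')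
  | br0 {k : K} {c0 cf ct : Cmd} {S S' : St} {t : ℕ} :
      S.get k = [] → Exec c0 S S' t → Exec (Cmd.br k c0 cf ct) S S' (t + 1)
  | brf {k : K} {c0 cf ct : Cmd} {S S' : St} {t : ℕ} {l : List Bool} :
      S.get k = false :: l → Exec cf (S.set k l) S' t → Exec (Cmd.br k c0 cf ct) S S' (t + 1)
  | brt {k : K} {c0 cf ct : Cmd} {S S' : St} {t : ℕ} {l : List Bool} :
      S.get k = true :: l → Exec ct (S.set k l) S' t → Exec (Cmd.br k c0 cf ct) S S' (t + 1)
  | loop0 {k : K} {cf ct : Cmd} {S : St} :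
      S.get k = [] → Exec (Cmd.loop k cf ct) S S 1
  | loopf {k : K} {cf ct : Cmd} {S S' S'' : St} {t t' : ℕ} {l : List Bool} :
      S.get k = false :: l → Exec cf (S.set k l) S' t → Exec (Cmd.loop k cf ct) S' S'' t' →
      Exec (Cmd.loop k cf ct) S S'' (t + t' + 1)
  | loopt {k : K} {cf ct : Cmd} {S S' S'' : St} {t t' : ℕ} {l : List Bool} :
      S.get k = true :: l → Exec ct (S.set k l) S' t → Exec (Cmd.loop k cf ct) S' S'' t' →
      Exec (Cmd.loop k cf ct) S S'' (t + t' + 1)
  | mono {c : Cmd} {S S' : St} {t t' : ℕ} : Exec c S S' t → t ≤ t' → Exec c S S' t'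

def Lab : Cmd → Type
  | Cmd.skip => Unit
  | Cmd.push _ _ => Unit
  | Cmd.seq c d => Lab c ⊕ Lab d
  | Cmd.br _ c0 cf ct => Unit ⊕ Lab c0 ⊕ Lab cf ⊕ Lab ct
  | Cmd.loop _ cf ct => Unit ⊕ Lab cf ⊕ Lab ct

@[reducible] def labFintype : (c : Cmd) → Fintype (Lab c)
  | Cmd.skip => inferInstanceAs (Fintype Unit)
  | Cmd.push _ _ => inferInstanceAs (Fintype Unit)
  | Cmd.seq c d => @instFintypeSum _ _ (labFintype c) (labFintype d)
  | Cmd.br _ c0 cf ct => @instFintypeSum _ _ (inferInstanceAs (Fintype Unit))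
      (@instFintypeSum _ _ (labFintype c0) (@instFintypeSum _ _ (labFintype cf) (labFintype ct)))
  | Cmd.loop _ cf ct => @instFintypeSum _ _ (inferInstanceAs (Fintype Unit))
      (@instFintypeSum _ _ (labFintype cf) (labFintype ct))

def entry : (c : Cmd) → Lab c
  | Cmd.skip => ()
  | Cmd.push _ _ => ()
  | Cmd.seq c _ => Sum.inl (entry c)
  | Cmd.br _ _ _ _ => Sum.inl ()
  | Cmd.loop _ _ _ => Sum.inl ()

/-- three way jump -/
def jump {Λ : Type} (x y z : Λ) : Option Bool → Λ
  | none => x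
  | some false => y
  | some true => z

def code {Λ : Type} : (c : Cmd) → (Lab c → Λ) → Λ → Lab c →
    Stmt (fun _ : K => Bool) Λ (Option Bool)
  | Cmd.skip, _, e, _ => Stmt.goto (fun _ => e)
  | Cmd.push k x, _, e, _ => Stmt.push k (fun _ => x) (Stmt.goto (fun _ => e))
  | Cmd.seq c d, ι, _, Sum.inl l => code c (fun x => ι (Sum.inl x)) (ι (Sum.inr (entry d))) l
  | Cmd.seq _ d, ι, e, Sum.inr l => code d (fun x => ι (Sum.inr x)) e l
  | Cmd.br k c0 cf ct, ι, _, Sum.inl _ => Stmt.pop k (fun _ o => o) (Stmt.goto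
      (jump (ι (Sum.inr (Sum.inl (entry c0)))) (ι (Sum.inr (Sum.inr (Sum.inl (entry cf)))))
        (ι (Sum.inr (Sum.inr (Sum.inr (entry ct)))))))
  | Cmd.br _ c0 _ _, ι, e, Sum.inr (Sum.inl l) => code c0 (fun x => ι (Sum.inr (Sum.inl x))) e l
  | Cmd.br _ _ cf _, ι, e, Sum.inr (Sum.inr (Sum.inl l)) =>
      code cf (fun x => ι (Sum.inr (Sum.inr (Sum.inl x)))) e l
  | Cmd.br _ _ _ ct, ι, e, Sum.inr (Sum.inr (Sum.inr l)) =>
      code ct (fun x => ι (Sum.inr (Sum.inr (Sum.inr x)))) e l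
  | Cmd.loop k cf ct, ι, e, Sum.inl _ => Stmt.pop k (fun _ o => o) (Stmt.goto
      (jump e (ι (Sum.inr (Sum.inl (entry cf)))) (ι (Sum.inr (Sum.inr (entry ct))))))
  | Cmd.loop _ cf _, ι, _, Sum.inr (Sum.inl l) =>
      code cf (fun x => ι (Sum.inr (Sum.inl x))) (ι (Sum.inl ())) l
  | Cmd.loop _ _ ct, ι, _, Sum.inr (Sum.inr l) =>
      code ct (fun x => ι (Sum.inr (Sum.inr x))) (ι (Sum.inl ())) l

/-- reachability in at most `t` steps -/
def Rch {Λ : Type} (M : Λ → Stmt (fun _ : K => Bool) Λ (Option Bool)) (l : Λ) (S : St)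
    (l' : Λ) (S' : St) (t : ℕ) : Prop :=
  ∀ v, ∃ v' s, s ≤ t ∧ (flip bind (TM2.step M))^[s] (some ⟨some l, v, S.get⟩) =
    some (⟨some l', v', S'.get⟩ : Cfg (fun _ : K => Bool) Λ (Option Bool))

theorem Rch.trans {Λ : Type} {M : Λ → Stmt (fun _ : K => Bool) Λ (Option Bool)} {l l' l'' : Λ}
    {S S' S'' : St} {t t' : ℕ} (h : Rch M l S l' S' t) (h' : Rch M l' S' l'' S'' t') :
    Rch M l S l'' S'' (t + t') := by
  intro v
  obtain ⟨v', s, hs, e⟩ := h v
  obtain ⟨v'', s', hs', e'⟩ := h' v'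
  refine ⟨v'', s' + s, by omega, ?_⟩
  rw [Function.iterate_add_apply, e, e']

theorem Rch.mono {Λ : Type} {M : Λ → Stmt (fun _ : K => Bool) Λ (Option Bool)} {l l' : Λ}
    {S S' : St} {t t' : ℕ} (h : Rch M l S l' S' t) (ht : t ≤ t') : Rch M l S l' S' t' := by
  intro v
  obtain ⟨v', s, hs, e⟩ := h v
  exact ⟨v', s, by omega, e⟩

theorem Rch.one {Λ : Type} {M : Λ → Stmt (fun _ : K => Bool) Λ (Option Bool)} {l l' : Λ}
    {S S' : St} (h : ∀ v, ∃ v', stepAux (M l) v S.get = ⟨some l', v', S'.get⟩) :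
    Rch M l S l' S' 1 := by
  intro v
  obtain ⟨v', e⟩ := h v
  refine ⟨v', 1, le_rfl, ?_⟩
  simp only [Function.iterate_one, flip, bind, Option.bind, TM2.step, e]

theorem Rch.pop {Λ : Type} {M : Λ → Stmt (fun _ : K => Bool) Λ (Option Bool)} {l x y z : Λ}
    {k : K} (S : St) (h : M l = Stmt.pop k (fun _ o => o) (Stmt.goto (jump x y z))) :
    Rch M l S (jump x y z (S.get k).head?) (S.set k (S.get k).tail) 1 := by
  apply Rch.one
  intro v
  refine ⟨(S.get k).head?, ?_⟩
  rw [h, St.get_set]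
  rfl

theorem St.set_self (S : St) (k : K) : S.set k (S.get k) = S := by
  cases k <;> rfl

theorem exec_rch {c : Cmd} {S S' : St} {t : ℕ} (h : Exec c S S' t) :
    ∀ {Λ : Type} (M : Λ → Stmt (fun _ : K => Bool) Λ (Option Bool)) (ι : Lab c → Λ) (e : Λ),
      (∀ l, M (ι l) = code c ι e l) → Rch M (ι (entry c)) S e S' t := by
  induction h with
  | skip S =>
    intro Λ M ι e hM
    apply Rch.one
    intro v
    exact ⟨v, by rw [hM]; rfl⟩
  | push k x S =>
    intro Λ M ι e hM
    apply Rch.one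
    intro v
    refine ⟨v, ?_⟩
    rw [hM, St.get_set]; rfl
  | @seq c d S S' S'' t t' _ _ ih1 ih2 =>
    intro Λ M ι e hM
    exact (ih1 M (fun x => ι (Sum.inl x)) (ι (Sum.inr (entry d))) (fun l => hM (Sum.inl l))).trans
      (ih2 M (fun x => ι (Sum.inr x)) e (fun l => hM (Sum.inr l)))
  | @br0 k c0 cf ct S S' t hk _ ih =>
    intro Λ M ι e hM
    have h1 := Rch.pop S (hM (Sum.inl ()))
    rw [hk] at h1
    have h3 : S.set k [] = S := by rw [← hk]; exact S.set_self k
    simp only [List.tail_nil, h3] at h1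
    have h2 := ih M (fun x => ι (Sum.inr (Sum.inl x))) e (fun l => hM (Sum.inr (Sum.inl l)))
    exact (h1.trans h2).mono (by omega)
  | @brf k c0 cf ct S S' t l hk _ ih =>
    intro Λ M ι e hM
    have h1 := Rch.pop S (hM (Sum.inl ()))
    rw [hk] at h1
    have h2 := ih M (fun x => ι (Sum.inr (Sum.inr (Sum.inl x)))) e
      (fun l => hM (Sum.inr (Sum.inr (Sum.inl l))))
    exact (h1.trans h2).mono (by omega)
  | @brt k c0 cf ct S S' t l hk _ ih =>
    intro Λ M ι e hM
    have h1 := Rch.pop S (hM (Sum.inl ()))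
    rw [hk] at h1
    have h2 := ih M (fun x => ι (Sum.inr (Sum.inr (Sum.inr x)))) e
      (fun l => hM (Sum.inr (Sum.inr (Sum.inr l))))
    exact (h1.trans h2).mono (by omega)
  | @loop0 k cf ct S hk =>
    intro Λ M ι e hM
    have h1 := Rch.pop S (hM (Sum.inl ()))
    rw [hk] at h1
    have h3 : S.set k [] = S := by rw [← hk]; exact S.set_self k
    simp only [List.tail_nil, h3] at h1
    exact h1
  | @loopf k cf ct S S' S'' t t' l hk _ _ ih1 ih2 =>
    intro Λ M ι e hM
    have h1 := Rch.pop S (hM (Sum.inl ()))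
    rw [hk] at h1
    have h2 := ih1 M (fun x => ι (Sum.inr (Sum.inl x))) (ι (Sum.inl ()))
      (fun l => hM (Sum.inr (Sum.inl l)))
    exact ((h1.trans h2).trans (ih2 M ι e hM)).mono (by omega)
  | @loopt k cf ct S S' S'' t t' l hk _ _ ih1 ih2 =>
    intro Λ M ι e hM
    have h1 := Rch.pop S (hM (Sum.inl ()))
    rw [hk] at h1
    have h2 := ih1 M (fun x => ι (Sum.inr (Sum.inr x))) (ι (Sum.inl ()))
      (fun l => hM (Sum.inr (Sum.inr l)))
    exact ((h1.trans h2).trans (ih2 M ι e hM)).mono (by omega)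
  | mono _ ht ih =>
    intro Λ M ι e hM
    exact (ih M ι e hM).mono ht

/-- program table of the compiled machine -/
def table (c : Cmd) : Option (Lab c) → Stmt (fun _ : K => Bool) (Option (Lab c)) (Option Bool)
  | some l => code c some none l
  | none => Stmt.load (fun _ => none) Stmt.halt

/-- the compiled machine -/
def compile (c : Cmd) : FinTM2 where
  K := K
  k₀ := K.m
  k₁ := K.m
  Γ := fun _ => Bool
  Λ := Option (Lab c)
  main := some (entry c)
  ΛFin := @instFintypeOption _ (labFintype c)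
  σ := Option Bool
  initialState := none
  m := table c

theorem compile_outputs {c : Cmd} {x y : List Bool} {t : ℕ}
    (h : Exec c ⟨x, [], [], []⟩ ⟨y, [], [], []⟩ t) :
    Nonempty (TM2OutputsInTime (compile c) x (some y) (t + 1)) := by
  obtain ⟨v', s, hs, e⟩ := exec_rch h (table c) some none (fun _ => rfl) none
  have hi : ∀ z : List Bool, (⟨z, [], [], []⟩ : St).get = (initList (compile c) z).stk := by
    intro z
    funext k
    cases k <;> rfl
  have hh : ∀ z : List Bool, (⟨z, [], [], []⟩ : St).get = (haltList (compile c) z).stk := by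
    intro z
    funext k
    cases k <;> rfl
  refine ⟨⟨⟨s + 1, ?_⟩, by show s + 1 ≤ t + 1; omega⟩⟩
  rw [Function.iterate_succ_apply']
  have e1 : (some (initList (compile c) x) : Option (compile c).Cfg) =
      some (⟨some (some (entry c)), none, (⟨x, [], [], []⟩ : St).get⟩ :
        Cfg (fun _ : K => Bool) (Option (Lab c)) (Option Bool)) := by
    rw [hi]; rfl
  have e2 : (flip bind (compile c).step)^[s] (some (initList (compile c) x)) =
      some (⟨some none, v', (⟨y, [], [], []⟩ : St).get⟩ :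
        Cfg (fun _ : K => Bool) (Option (Lab c)) (Option Bool)) := by
    rw [e1]; exact e
  rw [e2, hh]
  rfl

end Vale.Agent.Lib.H23
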