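import Vale.Agent.Lib.helper23.Tree
import Mathlib.Algebra.Polynomial.Eval.Degree
import Mathlib.Data.Nat.Bits
import Mathlib.Data.Nat.Size

/-! Polynomial time computable functions between types encoded as binary trees. -/

namespace Vale.Agent.Lib.H23

open Polynomial

class Enc (α : Type) where
  enc : α → Tr

open Enc

instance : Enc Unit := ⟨fun _ => Tr.nil⟩
instance : Enc Bool := ⟨fun b => bif b then Tr.node Tr.nil Tr.nil else Tr.nil⟩
instance {α β : Type} [Enc α] [Enc β] : Enc (α × β) := ⟨fun p => Tr.node (enc p.1) (enc p.2)⟩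

def encL {α : Type} [Enc α] : List α → Tr
  | [] => Tr.nil
  | a :: l => Tr.node (enc a) (encL l)

instance {α : Type} [Enc α] : Enc (List α) := ⟨encL⟩
instance : Enc ℕ := ⟨fun n => enc n.bits⟩
instance : Enc ℤ := ⟨fun z => enc (decide (z < 0), z.natAbs)⟩

variable {α β γ σ : Type} [Enc α] [Enc β] [Enc γ] [Enc σ]

theorem enc_pair (a : α) (b : β) : enc (a, b) = Tr.node (enc a) (enc b) := rfl
theorem enc_nil : enc ([] : List α) = Tr.nil := rfl
theorem enc_cons (a : α) (l : List α) : enc (a :: l) = Tr.node (enc a) (enc l) := rfl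
theorem enc_true : enc true = Tr.node Tr.nil Tr.nil := rfl
theorem enc_false : enc false = Tr.nil := rfl
theorem enc_nat (n : ℕ) : enc n = enc n.bits := rfl
theorem enc_int (z : ℤ) : enc z = enc (decide (z < 0), z.natAbs) := rfl

/-- length of the code of `x` -/
def sz (x : α) : ℕ := (enc x).size

theorem sz_pos (x : α) : 0 < sz x := Tr.size_pos _
@[simp] theorem sz_pair (a : α) (b : β) : sz (a, b) = sz a + sz b + 1 := by
  simp [sz, enc_pair]
@[simp] theorem sz_nil : sz ([] : List α) = 1 := rfl
@[simp] theorem sz_cons (a : α) (l : List α) : sz (a :: l) = sz a + sz l + 1 := by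
  simp [sz, enc_cons]
theorem sz_bool (b : Bool) : sz b ≤ 3 := by cases b <;> simp [sz, enc_true, enc_false]
theorem sz_prod (p : α × β) : sz p = sz p.1 + sz p.2 + 1 := sz_pair p.1 p.2

theorem length_lt_sz (l : List α) : l.length < sz l := by
  induction l with
  | nil => simp
  | cons a l ih => simp; omega

theorem sz_lt_of_mem {a : α} {l : List α} (h : a ∈ l) : sz a < sz l := by
  induction l with
  | nil => simp at h
  | cons b l ih =>
    rcases List.mem_cons.1 h with rfl | h
    · simp
    · have := ih h; simp; omega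

theorem sz_list_le {l : List α} {B : ℕ} (h : ∀ a ∈ l, sz a ≤ B) :
    sz l ≤ l.length * (B + 1) + 1 := by
  induction l with
  | nil => simp
  | cons b l ih =>
    have h1 := h b (by simp)
    have h2 := ih (fun a ha => h a (by simp [ha]))
    simp only [sz_cons, List.length_cons]
    nlinarith

theorem sz_tail_le (l : List α) : sz l.tail ≤ sz l := by
  cases l <;> simp
  omega

theorem sz_drop_le (l : List α) (k : ℕ) : sz (l.drop k) ≤ sz l := by
  induction k generalizing l with
  | zero => simp
  | succ k ih =>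
    cases l with
    | nil => simp
    | cons a l => have := ih l; simp; omega

theorem eval_mono (P : ℕ[X]) {a b : ℕ} (h : a ≤ b) : P.eval a ≤ P.eval b := by
  rw [eval_eq_sum_range, eval_eq_sum_range]
  apply Finset.sum_le_sum
  intro i _
  exact Nat.mul_le_mul_left _ (Nat.pow_le_pow_left h i)

theorem eval_le_pow (P : ℕ[X]) : ∃ k : ℕ, ∀ n : ℕ, P.eval n ≤ (n + 2) ^ k := by
  induction P using Polynomial.induction_on' with
  | add p q hp hq =>
    obtain ⟨k, hk⟩ := hp
    obtain ⟨l, hl⟩ := hq
    refine ⟨k + l + 1, fun n => ?_⟩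
    have h1 : (n + 2) ^ k ≤ (n + 2) ^ (k + l) := Nat.pow_le_pow_right (by omega) (by omega)
    have h2 : (n + 2) ^ l ≤ (n + 2) ^ (k + l) := Nat.pow_le_pow_right (by omega) (by omega)
    have := hk n
    have := hl n
    rw [eval_add, pow_succ]
    nlinarith
  | monomial k a =>
    refine ⟨a + k, fun n => ?_⟩
    rw [eval_monomial, pow_add]
    apply Nat.mul_le_mul
    · exact le_trans (Nat.lt_two_pow_self).le (Nat.pow_le_pow_left (by omega) a)
    · exact Nat.pow_le_pow_left (by omega) k

/-- polynomial time computability -/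
@[fun_prop] def PT (f : α → β) : Prop :=
  ∃ (c : Cmd) (P : ℕ[X]), ∀ x, Runs c (enc x) (enc (f x)) (P.eval (sz x))

theorem PT.size_le {f : α → β} (h : PT f) : ∃ Q : ℕ[X], ∀ x, sz (f x) ≤ Q.eval (sz x) := by
  obtain ⟨c, P, h⟩ := h
  exact ⟨X + P, fun x => by simpa [sz] using (h x).size_le⟩

theorem PT.of_enc {f : α → β} {g : α → γ} (h : PT g) (e : ∀ x, enc (f x) = enc (g x)) : PT f := by
  obtain ⟨c, P, h⟩ := h
  exact ⟨c, P, fun x => by rw [e]; exact h x⟩

theorem PT.congr {f g : α → β} (h : PT g) (e : ∀ x, f x = g x) : PT f :=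
  h.of_enc (fun x => by rw [e])

@[fun_prop] theorem PT.id : PT (fun x : α => x) :=
  ⟨Cmd.skip, 1, fun x => by simpa using runs_skip _⟩

theorem PT.retag {f : α → β} (e : ∀ x, enc (f x) = enc x) : PT f := PT.id.of_enc e

theorem runs_const (y : Tr) : ∃ (c : Cmd) (P : ℕ[X]), ∀ x : Tr, Runs c x y (P.eval x.size) := by
  induction y with
  | nil => exact ⟨nilC, 6 * X + 3, fun x => by simpa using runs_nil x⟩
  | node a b iha ihb =>
    obtain ⟨c, P, h⟩ := iha
    obtain ⟨d, Q, h'⟩ := ihb
    exact ⟨pairC c d, P + 9 * Q + 26 * X + 11, fun x => by simpa using runs_pair (h x) (h' x)⟩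

@[fun_prop] theorem PT.const (b : β) : PT (fun _ : α => b) := by
  obtain ⟨c, P, h⟩ := runs_const (enc b)
  exact ⟨c, P, fun x => h _⟩

@[fun_prop] theorem PT.comp {f : β → γ} {g : α → β} (hf : PT f) (hg : PT g) :
    PT (fun x => f (g x)) := by
  obtain ⟨Q, hQ⟩ := hg.size_le
  obtain ⟨c, P, h⟩ := hf
  obtain ⟨d, R, h'⟩ := hg
  refine ⟨Cmd.seq d c, R + P.comp Q, fun x => (runs_seq (h' x) (h (g x))).mono ?_⟩
  rw [eval_add, eval_comp]
  exact Nat.add_le_add_left (eval_mono P (hQ x)) _

@[fun_prop] theorem PT.pair {f : α → β} {g : α → γ} (hf : PT f) (hg : PT g) :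
    PT (fun x => (f x, g x)) := by
  obtain ⟨c, P, h⟩ := hf
  obtain ⟨d, R, h'⟩ := hg
  exact ⟨pairC c d, P + 9 * R + 26 * X + 11, fun x => by
    simpa [sz, enc_pair] using runs_pair (h x) (h' x)⟩

theorem PT.fst' : PT (fun p : α × β => p.1) :=
  ⟨fstC, 8 * X, fun x => (runs_fst (enc x.1) (enc x.2)).mono (by
    simp only [eval_mul, eval_ofNat, eval_X]; exact le_rfl)⟩

theorem PT.snd' : PT (fun p : α × β => p.2) :=
  ⟨sndC, 8 * X, fun x => (runs_snd (enc x.1) (enc x.2)).mono (by
    simp only [eval_mul, eval_ofNat, eval_X]; exact le_rfl)⟩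

@[fun_prop] theorem PT.fst {f : α → β × γ} (hf : PT f) : PT (fun x => (f x).1) :=
  PT.comp PT.fst' hf

@[fun_prop] theorem PT.snd {f : α → β × γ} (hf : PT f) : PT (fun x => (f x).2) :=
  PT.comp PT.snd' hf

/-- case distinction on a list -/
def lcase (l : List β) (g : γ) (h : β → List β → γ) : γ :=
  match l with
  | [] => g
  | a :: t => h a t

theorem PT.lcase' {g : α → γ} {h : (β × List β) × α → γ} (hg : PT g) (hh : PT h) :
    PT (fun p : List β × α => lcase p.1 (g p.2) (fun a t => h ((a, t), p.2))) := by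
  obtain ⟨c, P, hc⟩ := hg
  obtain ⟨d, R, hd⟩ := hh
  refine ⟨caseC c d, P + R + 4, fun x => ?_⟩
  obtain ⟨l, x⟩ := x
  cases l with
  | nil =>
    refine (runs_case_nil (hc x)).mono ?_
    have := eval_mono P (show sz x ≤ sz (([] : List β), x) by simp; omega)
    simp only [eval_add, eval_ofNat]
    omega
  | cons a t =>
    refine (runs_case_node (hd ((a, t), x))).mono ?_
    have : sz ((a, t), x) = sz (a :: t, x) := rfl
    rw [this]
    simp only [eval_add, eval_ofNat]
    omega

@[fun_prop] theorem PT.lcase {l : α → List β} {g : α → γ} {h : α → β → List β → γ} (hl : PT l)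
    (hg : PT g) (hh : PT (fun p : α × β × List β => h p.1 p.2.1 p.2.2)) :
    PT (fun x => lcase (l x) (g x) (h x)) := by
  have h1 : PT (fun q : (β × List β) × α => h q.2 q.1.1 q.1.2) :=
    PT.comp (g := fun q : (β × List β) × α => (q.2, q.1.1, q.1.2)) hh (by fun_prop)
  exact PT.comp (PT.lcase' hg h1) (PT.pair hl PT.id)

@[fun_prop] theorem PT.cond {b : α → Bool} {f g : α → β} (hb : PT b) (hf : PT f) (hg : PT g) :
    PT (fun x => cond (b x) (f x) (g x)) := by
  have h1 : PT (fun x => (bif b x then [()] else [] : List Unit)) :=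
    hb.of_enc (fun x => by cases b x <;> rfl)
  refine (PT.lcase (h := fun x _ _ => f x) h1 hg (by fun_prop)).congr (fun x => ?_)
  cases b x <;> rfl

@[fun_prop] theorem PT.cons {f : α → β} {g : α → List β} (hf : PT f) (hg : PT g) :
    PT (fun x => f x :: g x) := (PT.pair hf hg).of_enc (fun _ => rfl)

@[fun_prop] theorem PT.tail {g : α → List β} (hg : PT g) : PT (fun x => (g x).tail) := by
  refine (PT.lcase (g := fun _ => ([] : List β)) (h := fun _ _ t => t) hg (by fun_prop)
    (by fun_prop)).congr (fun x => ?_)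
  cases g x <;> rfl

@[fun_prop] theorem PT.headD {g : α → List β} {d : α → β} (hg : PT g) (hd : PT d) :
    PT (fun x => (g x).headD (d x)) := by
  refine (PT.lcase (h := fun _ a _ => a) hg hd (by fun_prop)).congr (fun x => ?_)
  cases g x <;> rfl

@[fun_prop] theorem PT.isEmpty {g : α → List β} (hg : PT g) : PT (fun x => (g x).isEmpty) := by
  refine (PT.lcase (g := fun _ => true) (h := fun _ _ _ => false) hg (by fun_prop)
    (by fun_prop)).congr (fun x => ?_)
  cases g x <;> rfl

@[fun_prop] theorem PT.not {f : α → Bool} (hf : PT f) : PT (fun x => !(f x)) := by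
  refine (PT.cond hf (PT.const false) (PT.const true)).congr (fun x => ?_)
  cases f x <;> rfl

@[fun_prop] theorem PT.and {f g : α → Bool} (hf : PT f) (hg : PT g) :
    PT (fun x => f x && g x) := by
  refine (PT.cond hf hg (PT.const false)).congr (fun x => ?_)
  cases f x <;> rfl

@[fun_prop] theorem PT.or {f g : α → Bool} (hf : PT f) (hg : PT g) :
    PT (fun x => f x || g x) := by
  refine (PT.cond hf (PT.const true) hg).congr (fun x => ?_)
  cases f x <;> rfl

@[fun_prop] theorem PT.xor {f g : α → Bool} (hf : PT f) (hg : PT g) :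
    PT (fun x => xor (f x) (g x)) := by
  refine (PT.cond hf (PT.not hg) hg).congr (fun x => ?_)
  cases f x <;> simp

/-- while loop with an explicit bound on the number of rounds and on the sizes -/
theorem loop_runs {step : σ → σ} {go : σ → Bool} (hs : PT step) (hg : PT go) :
    ∃ (c : Cmd) (P : ℕ[X]), ∀ (s : σ) (N B : ℕ), (∀ i < N, go (step^[i] s) = true) →
      go (step^[N] s) = false → (∀ i ≤ N, sz (step^[i] s) ≤ B) →
      Runs c (enc s) (enc (step^[N] s)) ((N + 1) * P.eval B) := by
  obtain ⟨d, Q, hd⟩ : PT (fun p : Bool × σ => (go (step p.2), step p.2)) := by fun_prop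
  obtain ⟨e, R, he⟩ : PT (fun s : σ => (go s, s)) := by fun_prop
  refine ⟨Cmd.seq e (loopC d), Q.comp (X + 4) + R + 7, fun s N B h1 h2 h3 => ?_⟩
  have key : ∀ (N : ℕ) (s : σ), (∀ i < N, go (step^[i] s) = true) →
      go (step^[N] s) = false → (∀ i ≤ N, sz (step^[i] s) ≤ B) →
      ∃ t, t ≤ N * (Q.eval (B + 4) + 6) + 5 ∧ Iter d (enc (go s, s)) (enc (step^[N] s)) t := by
    intro N
    induction N with
    | zero =>
      intro s _ h2 _
      simp only [Function.iterate_zero, id] at h2
      rw [h2]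
      exact ⟨5, by omega, Iter.stop _⟩
    | succ N ih =>
      intro s h1 h2 h3
      have h0 : go s = true := h1 0 (by omega)
      obtain ⟨t, ht, hi⟩ := ih (step s) (fun i hi => h1 (i + 1) (by omega)) h2
        (fun i hi => h3 (i + 1) (by omega))
      have hb : sz s ≤ B := h3 0 (by omega)
      have h4 := hd (true, s)
      have h5 : Q.eval (sz (true, s)) ≤ Q.eval (B + 4) := by
        apply eval_mono
        have := sz_bool true
        simp only [sz_pair]; omega
      rw [h0]
      refine ⟨_, ?_, Iter.go h4 hi⟩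
      nlinarith
  obtain ⟨t, ht, hi⟩ := key N s h1 h2 h3
  refine (runs_seq (he s) (runs_loop hi)).mono ?_
  have h5 : R.eval (sz s) ≤ R.eval B := eval_mono R (h3 0 (by omega))
  simp only [eval_add, eval_comp, eval_X, eval_ofNat]
  nlinarith [Nat.zero_le (N * R.eval B), Nat.zero_le (Q.eval (B + 4))]

theorem PT.foldl {f : α → σ → β → σ} {l : α → List β} {i : α → σ}
    (hf : PT (fun p : α × σ × β => f p.1 p.2.1 p.2.2)) (hl : PT l) (hi : PT i)
    (hsz : ∃ Q : ℕ[X], ∀ x k, sz (((l x).take k).foldl (f x) (i x)) ≤ Q.eval (sz x)) :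
    PT (fun x => (l x).foldl (f x) (i x)) := by
  obtain ⟨Q, hQ⟩ := hsz
  obtain ⟨L, hL⟩ := hl.size_le
  let step : List β × σ × α → List β × σ × α := fun s =>
    H23.lcase s.1 s (fun a t => (t, f s.2.2 s.2.1 a, s.2.2))
  have hstep : PT step := by
    have h0 : PT (fun p : (List β × σ × α) × β × List β => f p.1.2.2 p.1.2.1 p.2.1) :=
      PT.comp (g := fun p : (List β × σ × α) × β × List β => (p.1.2.2, p.1.2.1, p.2.1)) hf
        (by fun_prop)
    exact PT.lcase (by fun_prop) (by fun_prop) (PT.pair (by fun_prop) (PT.pair h0 (by fun_prop)))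
  obtain ⟨c, P, hc⟩ := loop_runs (go := fun s : List β × σ × α => !s.1.isEmpty) hstep
    (by fun_prop)
  have hit : ∀ (k : ℕ) (m : List β) (s : σ) (x : α),
      step^[k] (m, s, x) = (m.drop k, (m.take k).foldl (f x) s, x) := by
    intro k
    induction k with
    | zero => intro m s x; simp
    | succ k ih =>
      intro m s x
      rw [Function.iterate_succ_apply]
      cases m with
      | nil => simpa [step, H23.lcase] using ih [] s x
      | cons a t => simpa [step, H23.lcase] using ih t (f x s a) x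
  obtain ⟨d, R, hd⟩ : PT (fun x => (l x, i x, x)) := by fun_prop
  obtain ⟨e, S, he⟩ : PT (fun s : List β × σ × α => s.2.1) := by fun_prop
  refine ⟨Cmd.seq d (Cmd.seq c e), R + ((L + 1) * P.comp (L + Q + X + 2) + S.comp (L + Q + X + 2)),
    fun x => ?_⟩
  have hB : ∀ k, sz (step^[k] (l x, i x, x)) ≤ L.eval (sz x) + Q.eval (sz x) + sz x + 2 := by
    intro k
    rw [hit]
    have := hQ x k
    have := hL x
    have := sz_drop_le (l x) k
    simp only [sz_pair]
    omega
  have h1 := hc (l x, i x, x) (l x).length _ (by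
      intro k hk
      rw [hit]
      simp only [Bool.not_eq_true', List.isEmpty_eq_false_iff, ne_eq, List.drop_eq_nil_iff]
      omega) (by rw [hit]; simp) (fun k _ => hB k)
  have h2 := he (step^[(l x).length] (l x, i x, x))
  have h3 : (step^[(l x).length] (l x, i x, x)).2.1 = (l x).foldl (f x) (i x) := by
    rw [hit]; simp
  simp only [h3] at h2
  refine (runs_seq (hd x) (runs_seq h1 h2)).mono ?_
  have h4 := eval_mono S (hB (l x).length)
  have h5 : (l x).length + 1 ≤ L.eval (sz x) + 1 := by
    have := length_lt_sz (l x); have := hL x; omega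
  simp only [eval_add, eval_comp, eval_X, eval_ofNat, eval_mul, eval_one]
  have h6 := Nat.mul_le_mul_right (P.eval (L.eval (sz x) + Q.eval (sz x) + sz x + 2)) h5
  omega

theorem PT.foldl' {f : α → σ → β → σ} {l : α → List β} {i : α → σ}
    (hf : PT (fun p : α × σ × β => f p.1 p.2.1 p.2.2)) (hl : PT l) (hi : PT i)
    (hsz : ∃ Q : ℕ[X], ∀ x s a, sz (f x s a) ≤ sz s + Q.eval (sz x + sz a)) :
    PT (fun x => (l x).foldl (f x) (i x)) := by
  obtain ⟨Q, hQ⟩ := hsz
  obtain ⟨L, hL⟩ := hl.size_le
  obtain ⟨I, hI⟩ := hi.size_le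
  refine PT.foldl hf hl hi ⟨I + L * Q.comp (X + L), fun x k => ?_⟩
  have key : ∀ (m : List β) (s : σ), (∀ a ∈ m, sz a ≤ L.eval (sz x)) →
      sz (m.foldl (f x) s) ≤ sz s + m.length * Q.eval (sz x + L.eval (sz x)) := by
    intro m
    induction m with
    | nil => intro s _; simp
    | cons a t ih =>
      intro s h
      have h1 := ih (f x s a) (fun b hb => h b (by simp [hb]))
      have h2 := hQ x s a
      have h3 : Q.eval (sz x + sz a) ≤ Q.eval (sz x + L.eval (sz x)) :=
        eval_mono Q (Nat.add_le_add_left (h a (by simp)) _)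
      simp only [List.foldl_cons, List.length_cons]
      nlinarith
  have h1 := key ((l x).take k) (i x) (fun a ha =>
    le_trans (sz_lt_of_mem (List.mem_of_mem_take ha)).le (hL x))
  have h2 : ((l x).take k).length ≤ L.eval (sz x) := by
    have := length_lt_sz (l x); have := hL x; simp; omega
  have h3 := Nat.mul_le_mul_right (Q.eval (sz x + L.eval (sz x))) h2
  have h4 := hI x
  simp only [eval_add, eval_comp, eval_X, eval_mul]
  omega

end Vale.Agent.Lib.H23
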