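import Vale.Agent.Lib.helper23.Rec

/-! Division, code length, padded runs of recursive procedures, generation of paddings. -/

namespace Vale.Agent.Lib.H23

open Polynomial Enc Turing

variable {α β γ σ : Type} [Enc α] [Enc β] [Enc γ] [Enc σ]

def divStep (d : ℕ) (s : ℕ × ℕ) (b : Bool) : ℕ × ℕ :=
  bif ltb (Nat.bit b s.2) d then (Nat.bit false s.1, Nat.bit b s.2)
  else (Nat.bit true s.1, Nat.bit b s.2 - d)

theorem divStep_inv (d : ℕ) (l : List Bool) : ∀ (q r m k : ℕ), q < 2 ^ k → r < 2 ^ k →
    (0 < d → q * d + r = m ∧ r < d) →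
    (l.foldl (divStep d) (q, r)).1 < 2 ^ (k + l.length) ∧
    (l.foldl (divStep d) (q, r)).2 < 2 ^ (k + l.length) ∧
    (0 < d → (l.foldl (divStep d) (q, r)).1 * d + (l.foldl (divStep d) (q, r)).2 =
      l.foldl (fun n b => Nat.bit b n) m ∧ (l.foldl (divStep d) (q, r)).2 < d) := by
  induction l with
  | nil => intro q r m k h1 h2 h3; exact ⟨h1, h2, h3⟩
  | cons b l ih =>
    intro q r m k h1 h2 h3
    simp only [List.foldl_cons, List.length_cons]
    rw [show k + (l.length + 1) = (k + 1) + l.length by omega]
    have hb : b.toNat ≤ 1 := by cases b <;> simp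
    by_cases h : Nat.bit b r < d
    · have e : divStep d (q, r) b = (Nat.bit false q, Nat.bit b r) := by simp [divStep, h]
      rw [e]
      apply ih
      · rw [Nat.bit_val, pow_succ]; simp; omega
      · rw [Nat.bit_val, pow_succ]; omega
      · intro hd
        obtain ⟨h4, h5⟩ := h3 hd
        refine ⟨?_, h⟩
        simp only [Nat.bit_val, Bool.toNat_false]
        rw [← h4]; ring
    · have e : divStep d (q, r) b = (Nat.bit true q, Nat.bit b r - d) := by simp [divStep, h]
      rw [e]
      apply ih
      · rw [Nat.bit_val, pow_succ]; simp; omega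
      · rw [Nat.bit_val, pow_succ]; omega
      · intro hd
        obtain ⟨h4, h5⟩ := h3 hd
        simp only [Nat.bit_val, Bool.toNat_true] at h ⊢
        refine ⟨?_, by omega⟩
        rw [← h4]
        have : (2 * q + 1) * d = 2 * (q * d) + d := by ring
        omega

@[fun_prop] theorem PT.div {f g : α → ℕ} (hf : PT f) (hg : PT g) : PT (fun x => f x / g x) := by
  have key : PT (fun p : ℕ × ℕ => p.1.bits.reverse.foldl (divStep p.2) (0, 0)) := by
    refine PT.foldl (f := fun (p : ℕ × ℕ) s b => divStep p.2 s b) (by unfold divStep; fun_prop)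
      (by fun_prop) (by fun_prop) ⟨8 * X + 3, fun p k => ?_⟩
    obtain ⟨h1, h2, -⟩ := divStep_inv p.2 (p.1.bits.reverse.take k) 0 0 0 0 (by simp) (by simp)
      (fun h => ⟨by simp, h⟩)
    have h3 : (p.1.bits.reverse.take k).length ≤ sz p.1 := by
      have := size_lt_sz p.1
      simp [Nat.size_eq_bits_len]; omega
    have h4 := sz_nat_le h1
    have h5 := sz_nat_le h2
    have h6 := sz_prod p
    show sz (List.foldl (divStep p.2) (0, 0) (p.1.bits.reverse.take k)) ≤ _
    rw [sz_prod]
    simp only [eval_add, eval_mul, eval_ofNat, eval_X]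
    omega
  refine (PT.cond (PT.eqb hg (PT.const 0)) (PT.const 0)
    (PT.comp key (PT.pair hf hg)).fst).congr (fun x => ?_)
  by_cases h : g x = 0
  · simp [h]
  · obtain ⟨-, -, h3⟩ := divStep_inv (g x) (f x).bits.reverse 0 0 0 0 (by simp) (by simp)
      (fun h => ⟨by simp, h⟩)
    obtain ⟨h4, h5⟩ := h3 (by omega)
    have h6 := valMSB_reverse_bits (f x)
    unfold H23.valMSB at h6
    rw [h6] at h4
    simp only [eqb_eq, h, decide_false, cond_false]
    generalize List.foldl (divStep (g x)) (0, 0) (f x).bits.reverse = s at h4 h5 ⊢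
    rw [← h4, Nat.add_comm, Nat.add_mul_div_right _ _ (by omega), Nat.div_eq_of_lt h5, zero_add]

instance : Enc Tr := ⟨fun t => t⟩

def Tr.toList : Tr → List Tr
  | Tr.nil => []
  | Tr.node a b => a :: Tr.toList b

theorem enc_toList (t : Tr) : enc t.toList = t := by
  induction t with
  | nil => rfl
  | node a b _ ih => rw [Tr.toList, enc_cons, ih]; rfl

theorem toList_enc (l : List Tr) : (enc l : Tr).toList = l := by
  induction l with
  | nil => rfl
  | cons a l ih => rw [enc_cons, Tr.toList, ih]; rfl

def szStep (s : List Tr × List Unit) : List Tr × List Unit :=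
  lcase s.1 s (fun t st => (lcase t.toList st (fun a b => a :: enc b :: st), () :: s.2))

theorem szStep_iter (N : ℕ) : ∀ (st : List Tr) (c : List Unit), (st.map Tr.size).sum = N →
    szStep^[N] (st, c) = ([], List.replicate N () ++ c) ∧
    ∀ i < N, (szStep^[i] (st, c)).1 ≠ [] ∧ sz (szStep^[i] (st, c)) ≤ 4 * N + sz c + 2 := by
  induction N with
  | zero =>
    intro st c h
    cases st with
    | nil => simp
    | cons t st => have := t.size_pos; simp at h; omega
  | succ N ih =>
    intro st c h
    cases st with
    | nil => simp at h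
    | cons t st =>
      have hsz : ∀ l : List Tr, sz l ≤ 2 * (l.map Tr.size).sum + 1 := by
        intro l
        induction l with
        | nil => simp
        | cons a l ih =>
          have := a.size_pos
          have : sz a = a.size := rfl
          simp; omega
      have hu : sz (() : Unit) = 1 := rfl
      obtain ⟨st', e, h'⟩ : ∃ st', szStep (t :: st, c) = (st', () :: c) ∧
          (st'.map Tr.size).sum = N := by
        cases t with
        | nil => exact ⟨st, rfl, by simp at h; omega⟩
        | node a b =>
          refine ⟨a :: b :: st, ?_, by simp at h ⊢; omega⟩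
          simp only [szStep, lcase, Tr.toList, enc_toList]
      obtain ⟨i1, i2⟩ := ih st' (() :: c) h'
      refine ⟨?_, fun i hi => ?_⟩
      · rw [Function.iterate_succ_apply, e, i1]
        simp [List.replicate_succ']
      · cases i with
        | zero =>
          refine ⟨by simp, ?_⟩
          have := hsz (t :: st)
          simp only [Function.iterate_zero, id, sz_pair]
          omega
        | succ i =>
          rw [Function.iterate_succ_apply, e]
          obtain ⟨j1, j2⟩ := i2 i (by omega)
          refine ⟨j1, ?_⟩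
          simp only [sz_cons] at j2
          omega

theorem sz_replicate_unit (N : ℕ) : sz (List.replicate N ()) = 2 * N + 1 := by
  induction N with
  | zero => rfl
  | succ N ih =>
    have hu : sz (() : Unit) = 1 := rfl
    rw [List.replicate_succ, sz_cons, ih]; omega

theorem PT.szUnary : PT (fun t : Tr => List.replicate t.size ()) := by
  have h0 : PT Tr.toList := PT.retag enc_toList
  have h1 : PT (fun l : List Tr => (enc l : Tr)) := PT.retag (fun _ => rfl)
  have hstep : PT szStep := by
    unfold szStep
    refine PT.lcase (by fun_prop) (by fun_prop) (PT.pair (PT.lcase (PT.comp h0 (by fun_prop))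
      (by fun_prop) (PT.cons (by fun_prop) (PT.cons (PT.comp h1 (by fun_prop)) (by fun_prop))))
      (by fun_prop))
  obtain ⟨c, P, hc⟩ := loop_runs (go := fun s : List Tr × List Unit => !s.1.isEmpty) hstep
    (by fun_prop)
  obtain ⟨d, Q, hd⟩ : PT (fun t : Tr => (([t], []) : List Tr × List Unit)) := by fun_prop
  obtain ⟨e, R, he⟩ : PT (fun s : List Tr × List Unit => s.2) := by fun_prop
  refine ⟨Cmd.seq d (Cmd.seq c e), Q + ((X + 1) * P.comp (4 * X + 3) + R.comp (4 * X + 3)),
    fun t => ?_⟩
  obtain ⟨i1, i2⟩ := szStep_iter t.size [t] [] (by simp)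
  rw [List.append_nil] at i1
  have hf : sz (([], List.replicate t.size ()) : List Tr × List Unit) ≤ 4 * t.size + 3 := by
    rw [sz_pair, sz_replicate_unit]; simp; omega
  have h2 := hc ([t], []) t.size (4 * t.size + 3) (fun i hi => by simpa using (i2 i hi).1)
    (by rw [i1]; rfl) (fun i hi => by
      rcases Nat.lt_or_eq_of_le hi with hi | rfl
      · simpa using (i2 i hi).2
      · rw [i1]; exact hf)
  rw [i1] at h2
  refine (runs_seq (hd t) (runs_seq h2 (he _))).mono ?_
  have h3 := eval_mono R hf
  have : sz t = t.size := rfl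
  simp only [eval_add, eval_mul, eval_comp, eval_X, eval_ofNat, eval_one, this]
  omega

@[fun_prop] theorem PT.sz {f : α → β} (hf : PT f) : PT (fun x => sz (f x)) := by
  have h1 : PT (fun y : β => (enc y : Tr)) := PT.retag (fun _ => rfl)
  exact (PT.comp PT.szUnary (PT.comp h1 hf)).length.congr (fun x => by simp [H23.sz])

/-- iterate `step` once for every element of `pad`, as long as the state is short -/
def padIter (step : σ → σ) (pad : List Unit) (s : σ) : σ :=
  pad.foldl (fun s _ => bif ltb pad.length (sz s) then s else step s) s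

theorem PT.padIter {step : σ → σ} (hs : PT step) {pad : α → List Unit} {s : α → σ}
    (hp : PT pad) (hi : PT s) : PT (fun x => padIter step (pad x) (s x)) := by
  obtain ⟨Q, hQ⟩ := hs.size_le
  have key : PT (fun x : List Unit × σ => H23.padIter step x.1 x.2) := by
    refine PT.foldl (f := fun (x : List Unit × σ) s (_ : Unit) =>
      bif H23.ltb x.1.length (H23.sz s) then s else step s) (by fun_prop) (by fun_prop)
      (by fun_prop) ⟨X + Q, fun x k => ?_⟩
    have e : ∀ (m : List Unit) (s : σ), H23.sz s ≤ H23.sz x + Q.eval (H23.sz x) →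
        H23.sz (m.foldl (fun s _ => bif H23.ltb x.1.length (H23.sz s) then s else step s) s) ≤
          H23.sz x + Q.eval (H23.sz x) := by
      intro m
      induction m with
      | nil => intro s h; exact h
      | cons a m ih =>
        intro s h
        rw [List.foldl_cons]
        apply ih
        by_cases h1 : x.1.length < H23.sz s
        · simpa [h1] using h
        · have h2 := hQ s
          have h3 : Q.eval (H23.sz s) ≤ Q.eval (H23.sz x) := by
            apply eval_mono
            have := length_lt_sz x.1
            have := sz_prod x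
            omega
          simp [h1]
          omega
    simp only [eval_add, eval_X]
    apply e
    have := sz_prod x
    omega
  exact PT.comp key (PT.pair hp hi)

theorem padIter_eq {step : σ → σ} {pad : List Unit} {s : σ} {N : ℕ} (hN : N ≤ pad.length)
    (h1 : ∀ i < N, sz (step^[i] s) ≤ pad.length) (h2 : step (step^[N] s) = step^[N] s) :
    padIter step pad s = step^[N] s := by
  have key : ∀ (m : List Unit) (N : ℕ) (s : σ), N ≤ m.length →
      (∀ i < N, sz (step^[i] s) ≤ pad.length) → step (step^[N] s) = step^[N] s →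
      m.foldl (fun s _ => bif ltb pad.length (sz s) then s else step s) s = step^[N] s := by
    intro m
    induction m with
    | nil =>
      intro N s h _ _
      obtain rfl : N = 0 := by simpa using h
      rfl
    | cons a m ih =>
      intro N s h h1 h2
      rw [List.foldl_cons]
      cases N with
      | zero =>
        have e : (bif ltb pad.length (sz s) then s else step s) = s := by
          cases ltb pad.length (sz s)
          · exact h2
          · rfl
        rw [e]
        exact ih 0 s (by omega) (by simp) h2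
      | succ N =>
        have e : (bif ltb pad.length (sz s) then s else step s) = step s := by
          have := h1 0 (by omega)
          simp only [Function.iterate_zero, id] at this
          simp [not_lt.2 this]
        rw [e]
        exact ih N (step s) (by simpa using h) (fun i hi => h1 (i + 1) (by omega)) h2
  exact key pad N s hN h1 h2

variable {G A S B : Type} [Enc G] [Enc A] [Enc S] [Enc B]

/-- run a recursive procedure with the resources given by `pad` -/
def padRun (p : Proc G A S B) (pad : List Unit) (g : G) (a : A) (b0 : B) : B :=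
  (padIter (mstep p) pad (g, true, false, a, b0, [])).2.2.2.2.1

theorem padRun_eq {p : Proc G A S B} {pad : List Unit} {g : G} {a : A} {b0 b : B} {Bd d N : ℕ}
    (h : Ev p g Bd d (Sum.inl a) b N) (hb : sz b0 ≤ Bd) (hN : N ≤ pad.length)
    (hT : sz g + (d + 2) * (Bd + 1) + 12 ≤ pad.length) : padRun p pad g a b0 = b := by
  obtain ⟨a', -, hs1, hs2⟩ := h.steps (D := d) a b0 [] h.sz_arg hb (by simp) (by simp [extra])
  unfold padRun
  have := padIter_eq (step := mstep p) (s := mstart g (Sum.inl a) a b0 []) hN
    (fun i hi => le_trans (hs2 i hi).2 hT) (by rw [hs1]; rfl)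
  rw [hs1] at this
  exact congrArg (fun x : MS G A S B => x.2.2.2.2.1) this

theorem PT.mstep (p : Proc G A S B) (h1 : PT (fun x : G × A => p.isBase x.1 x.2))
    (h2 : PT (fun x : G × A => p.base x.1 x.2)) (h3 : PT (fun x : G × A => p.init x.1 x.2))
    (h4 : PT (fun x : G × S => p.more x.1 x.2)) (h5 : PT (fun x : G × S => p.args x.1 x.2))
    (h6 : PT (fun x : G × S × B => p.resume x.1 x.2.1 x.2.2))
    (h7 : PT (fun x : G × S => p.fin x.1 x.2)) : PT (mstep p) := by
  unfold H23.mstep
  have k1 : PT (fun x : MS G A S B => p.isBase x.1 x.2.2.2.1) :=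
    PT.comp (g := fun x : MS G A S B => (x.1, x.2.2.2.1)) h1 (by fun_prop)
  have k2 : PT (fun x : MS G A S B => p.base x.1 x.2.2.2.1) :=
    PT.comp (g := fun x : MS G A S B => (x.1, x.2.2.2.1)) h2 (by fun_prop)
  have k3 : PT (fun x : MS G A S B => p.init x.1 x.2.2.2.1) :=
    PT.comp (g := fun x : MS G A S B => (x.1, x.2.2.2.1)) h3 (by fun_prop)
  have k4 : PT (fun y : MS G A S B × S × List S => p.more y.1.1 y.2.1) :=
    PT.comp (g := fun y : MS G A S B × S × List S => (y.1.1, y.2.1)) h4 (by fun_prop)
  have k5 : PT (fun y : MS G A S B × S × List S => p.args y.1.1 y.2.1) :=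
    PT.comp (g := fun y : MS G A S B × S × List S => (y.1.1, y.2.1)) h5 (by fun_prop)
  have k6 : PT (fun y : MS G A S B × S × List S => p.resume y.1.1 y.2.1 y.1.2.2.2.2.1) :=
    PT.comp (g := fun y : MS G A S B × S × List S => (y.1.1, y.2.1, y.1.2.2.2.2.1)) h6
      (by fun_prop)
  have k7 : PT (fun y : MS G A S B × S × List S => p.fin y.1.1 y.2.1) :=
    PT.comp (g := fun y : MS G A S B × S × List S => (y.1.1, y.2.1)) h7 (by fun_prop)
  refine PT.cond (by fun_prop) (PT.cond k1 ?_ ?_) (PT.lcase (by fun_prop) (by fun_prop)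
    (PT.cond (by fun_prop) (PT.cond k4 ?_ ?_) ?_))
  · exact PT.pair (by fun_prop) (PT.pair (by fun_prop) (PT.pair (by fun_prop)
      (PT.pair (by fun_prop) (PT.pair k2 (by fun_prop)))))
  · exact PT.pair (by fun_prop) (PT.pair (by fun_prop) (PT.pair (by fun_prop)
      (PT.pair (by fun_prop) (PT.pair (by fun_prop) (PT.cons k3 (by fun_prop))))))
  · exact PT.pair (by fun_prop) (PT.pair (by fun_prop) (PT.pair (by fun_prop)
      (PT.pair k5 (by fun_prop))))
  · exact PT.pair (by fun_prop) (PT.pair (by fun_prop) (PT.pair (by fun_prop)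
      (PT.pair (by fun_prop) (PT.pair k7 (by fun_prop)))))
  · exact PT.pair (by fun_prop) (PT.pair (by fun_prop) (PT.pair (by fun_prop)
      (PT.pair (by fun_prop) (PT.pair (by fun_prop) (PT.cons k6 (by fun_prop))))))

theorem PT.padRun {p : Proc G A S B} (hp : PT (H23.mstep p)) {pad : α → List Unit} {g : α → G}
    {a : α → A} {b0 : α → B} (h1 : PT pad) (h2 : PT g) (h3 : PT a) (h4 : PT b0) :
    PT (fun x => padRun p (pad x) (g x) (a x) (b0 x)) :=
  (PT.padIter hp h1 (s := fun x => ((g x, true, false, a x, b0 x, []) : MS G A S B))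
    (by fun_prop)).snd.snd.snd.snd.fst

/-- a polynomial time function of the input and of a padding of length `2 ^ e x` -/
theorem pad_runs {e : α → ℕ} {F : List Unit × α → β} (he : PT e) (hF : PT F) :
    ∃ (c : Cmd) (k : ℕ), ∀ x, Runs c (enc x) (enc (F (List.replicate (2 ^ e x) (), x)))
      ((sz x + 2 ^ e x + 2) ^ k) := by
  let step : ℕ × List Unit × α → ℕ × List Unit × α := fun s => (s.1 - 1, s.2.1 ++ s.2.1, s.2.2)
  obtain ⟨c, P, hc⟩ := loop_runs (step := step) (go := fun s => ltb 0 s.1) (by fun_prop)
    (by fun_prop)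
  obtain ⟨E, hE⟩ := he.size_le
  obtain ⟨d, Q, hd⟩ : PT (fun x : α => ((e x, [()], x) : ℕ × List Unit × α)) := by fun_prop
  obtain ⟨f, R, hf⟩ : PT (fun s : ℕ × List Unit × α => F s.2) := by fun_prop
  obtain ⟨k, hk⟩ := eval_le_pow (Q + ((X + 1) * P.comp (4 * E + 2 * X + 4) +
    R.comp (4 * E + 2 * X + 4)))
  refine ⟨Cmd.seq d (Cmd.seq c f), k, fun x => ?_⟩
  have hit : ∀ i, step^[i] (e x, [()], x) = (e x - i, List.replicate (2 ^ i) (), x) := by
    intro i
    induction i with
    | zero => rfl
    | succ i ih =>
      rw [Function.iterate_succ_apply', ih]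
      simp only [step, List.replicate_append_replicate, pow_succ]
      rw [Nat.sub_sub, Nat.mul_two]
  obtain ⟨m, hm⟩ : ∃ m, m = sz x + 2 ^ e x := ⟨_, rfl⟩
  rw [← hm]
  have hxm : sz x ≤ m := by rw [hm]; exact Nat.le_add_right _ _
  have hEm : E.eval (sz x) ≤ E.eval m := eval_mono E hxm
  have hB : ∀ i ≤ e x, sz (step^[i] (e x, [()], x)) ≤ 4 * E.eval m + 2 * m + 4 := by
    intro i hi
    rw [hit, sz_pair, sz_pair, sz_replicate_unit]
    have h1 : e x - i < 2 ^ E.eval (sz x) := lt_of_le_of_lt (Nat.sub_le _ _)
      (lt_of_lt_of_le (lt_two_pow_sz _) (Nat.pow_le_pow_right (by omega) (hE x)))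
    have h2 := sz_nat_le h1
    have h3 : 2 ^ i ≤ 2 ^ e x := Nat.pow_le_pow_right (by omega) hi
    omega
  have h1 := hc (e x, [()], x) (e x) _ (fun i hi => by rw [hit]; simp; omega)
    (by rw [hit]; simp) hB
  have h2 := hf (step^[e x] (e x, [()], x))
  have h3 := eval_mono R (hB (e x) le_rfl)
  rw [hit] at h1 h2 h3
  refine (runs_seq (hd x) (runs_seq h1 h2)).mono (le_trans ?_ (hk m))
  have h4 : Q.eval (sz x) ≤ Q.eval m := eval_mono Q hxm
  have h5 : e x + 1 ≤ m + 1 := by
    have : e x < 2 ^ e x := Nat.lt_two_pow_self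
    omega
  have h6 := Nat.mul_le_mul_right (P.eval (4 * E.eval m + 2 * m + 4)) h5
  simp only [eval_add, eval_mul, eval_comp, eval_X, eval_ofNat, eval_one]
  omega

end Vale.Agent.Lib.H23
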