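import Vale.Agent.Lib.helper23.Arith

/-! Recursive procedures with polynomial time bodies, run with an explicit stack of frames. -/

namespace Vale.Agent.Lib.H23

open Polynomial Enc Turing

theorem Runs.outputs {c : Cmd} {x y : Tr} {t : ℕ} (h : Runs c x y t) :
    Nonempty (TM2OutputsInTime (compile c) (ser x) (some (ser y)) (t + 1)) := by
  apply compile_outputs
  simpa using h []

/-- a recursive procedure: global data `G`, arguments `A`, frames `S`, results `B` -/
structure Proc (G A S B : Type) where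
  isBase : G → A → Bool
  base : G → A → B
  init : G → A → S
  more : G → S → Bool
  args : G → S → A
  resume : G → S → B → S
  fin : G → S → B

variable {G A S B : Type} [Enc G] [Enc A] [Enc S] [Enc B]

/-- evaluation with size bound `Bd`, recursion depth `d` and exactly `N` machine rounds -/
inductive Ev (p : Proc G A S B) (g : G) (Bd : ℕ) : ℕ → A ⊕ S → B → ℕ → Prop
  | base {d : ℕ} {a : A} : p.isBase g a = true → sz a ≤ Bd → sz (p.base g a) ≤ Bd →
      Ev p g Bd d (Sum.inl a) (p.base g a) 1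
  | enter {d N : ℕ} {a : A} {b : B} : p.isBase g a = false → sz a ≤ Bd →
      Ev p g Bd d (Sum.inr (p.init g a)) b N → Ev p g Bd (d + 1) (Sum.inl a) b (N + 1)
  | fin {d : ℕ} {s : S} : p.more g s = false → sz s ≤ Bd → sz (p.fin g s) ≤ Bd →
      Ev p g Bd d (Sum.inr s) (p.fin g s) 1
  | call {d N M : ℕ} {s : S} {b b' : B} : p.more g s = true → sz s ≤ Bd →
      Ev p g Bd d (Sum.inl (p.args g s)) b' N → Ev p g Bd d (Sum.inr (p.resume g s b')) b M →
      Ev p g Bd d (Sum.inr s) b (N + M + 2)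

omit [Enc G] in
theorem Ev.sz_res {p : Proc G A S B} {g : G} {Bd d N : ℕ} {x : A ⊕ S} {b : B}
    (h : Ev p g Bd d x b N) : sz b ≤ Bd := by
  induction h with
  | base _ _ h => exact h
  | enter _ _ _ ih => exact ih
  | fin _ _ h => exact h
  | call _ _ _ _ _ ih => exact ih

omit [Enc G] in
theorem Ev.sz_arg {p : Proc G A S B} {g : G} {Bd d N : ℕ} {a : A} {b : B}
    (h : Ev p g Bd d (Sum.inl a) b N) : sz a ≤ Bd := by
  cases h <;> assumption

/-- machine state: global data, two mode flags, argument, result, stack -/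
abbrev MS (G A S B : Type) : Type := G × Bool × Bool × A × B × List S

def mstep (p : Proc G A S B) (x : MS G A S B) : MS G A S B :=
  bif x.2.1 then
    (bif p.isBase x.1 x.2.2.2.1 then
      (x.1, false, false, x.2.2.2.1, p.base x.1 x.2.2.2.1, x.2.2.2.2.2)
    else (x.1, false, true, x.2.2.2.1, x.2.2.2.2.1, p.init x.1 x.2.2.2.1 :: x.2.2.2.2.2))
  else lcase x.2.2.2.2.2 x (fun s st =>
    bif x.2.2.1 then
      (bif p.more x.1 s then (x.1, true, false, p.args x.1 s, x.2.2.2.2.1, s :: st)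
      else (x.1, false, false, x.2.2.2.1, p.fin x.1 s, st))
    else (x.1, false, true, x.2.2.2.1, x.2.2.2.2.1, p.resume x.1 s x.2.2.2.2.1 :: st))

def mgo (x : MS G A S B) : Bool := x.2.1 || !x.2.2.2.2.2.isEmpty

def Steps (p : Proc G A S B) (T : ℕ) (x y : MS G A S B) (N : ℕ) : Prop :=
  (mstep p)^[N] x = y ∧ ∀ i < N, mgo ((mstep p)^[i] x) = true ∧ sz ((mstep p)^[i] x) ≤ T

theorem Steps.trans {p : Proc G A S B} {T : ℕ} {x y z : MS G A S B} {N M : ℕ}
    (h : Steps p T x y N) (h' : Steps p T y z M) : Steps p T x z (N + M) := by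
  refine ⟨by rw [Nat.add_comm, Function.iterate_add_apply, h.1, h'.1], fun i hi => ?_⟩
  by_cases hN : i < N
  · exact h.2 i hN
  · obtain ⟨j, rfl⟩ : ∃ j, i = j + N := ⟨i - N, by omega⟩
    rw [Function.iterate_add_apply, h.1]
    exact h'.2 j (by omega)

theorem Steps.one {p : Proc G A S B} {T : ℕ} {x : MS G A S B} (h1 : mgo x = true)
    (h2 : sz x ≤ T) : Steps p T x (mstep p x) 1 := by
  refine ⟨rfl, fun i hi => ?_⟩
  obtain rfl : i = 0 := by omega
  exact ⟨h1, h2⟩

theorem sz_ms_le {g : G} {m1 m2 : Bool} {a : A} {b : B} {st : List S} {Bd D : ℕ}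
    (ha : sz a ≤ Bd) (hb : sz b ≤ Bd) (hs : ∀ s ∈ st, sz s ≤ Bd) (hl : st.length ≤ D) :
    sz ((g, m1, m2, a, b, st) : MS G A S B) ≤ sz g + (D + 2) * (Bd + 1) + 12 := by
  have h1 := sz_list_le hs
  have h2 := Nat.mul_le_mul_right (Bd + 1) hl
  have h3 := sz_bool m1
  have h4 := sz_bool m2
  simp only [sz_pair]
  nlinarith

/-- entry state for an argument or a frame -/
def mstart (g : G) (x : A ⊕ S) (a0 : A) (b0 : B) (st : List S) : MS G A S B :=
  match x with
  | Sum.inl a => (g, true, false, a, b0, st)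
  | Sum.inr s => (g, false, true, a0, b0, s :: st)

def extra (x : A ⊕ S) : ℕ :=
  match x with
  | Sum.inl _ => 0
  | Sum.inr _ => 1

theorem Ev.steps {p : Proc G A S B} {g : G} {Bd D d N : ℕ} {x : A ⊕ S} {b : B}
    (h : Ev p g Bd d x b N) : ∀ (a0 : A) (b0 : B) (st : List S), sz a0 ≤ Bd → sz b0 ≤ Bd →
      (∀ s ∈ st, sz s ≤ Bd) → st.length + extra x + d ≤ D →
      ∃ a', sz a' ≤ Bd ∧ Steps p (sz g + (D + 2) * (Bd + 1) + 12) (mstart g x a0 b0 st)
        (g, false, false, a', b, st) N := by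
  induction h with
  | @base d a h1 h2 h3 =>
    intro a0 b0 st _ hb hs hl
    refine ⟨a, h2, ?_⟩
    have := Steps.one (p := p) (x := (g, true, false, a, b0, st)) rfl
      (sz_ms_le (D := D) h2 hb hs (by omega))
    simpa [mstep, h1, mstart] using this
  | @enter d N a b h1 h2 _ ih =>
    intro a0 b0 st _ hb hs hl
    obtain ⟨a', ha', hst⟩ := ih a b0 st h2 hb hs (by simp [extra] at hl ⊢; omega)
    refine ⟨a', ha', ?_⟩
    have := Steps.one (p := p) (x := (g, true, false, a, b0, st)) rfl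
      (sz_ms_le (D := D) h2 hb hs (by omega))
    rw [Nat.add_comm N 1]
    refine Steps.trans this ?_
    simpa [mstep, h1, mstart] using hst
  | @fin d s h1 h2 h3 =>
    intro a0 b0 st ha hb hs hl
    refine ⟨a0, ha, ?_⟩
    have := Steps.one (p := p) (x := (g, false, true, a0, b0, s :: st)) rfl
      (sz_ms_le (D := D) ha hb (by simpa [h2] using hs) (by simp [extra] at hl ⊢; omega))
    simpa [mstep, h1, mstart, lcase] using this
  | @call d N M s b b' h1 h2 e1 _ ih1 ih2 =>
    intro a0 b0 st ha hb hs hl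
    have hs' : ∀ t ∈ s :: st, sz t ≤ Bd := by simpa [h2] using hs
    have hl' : (s :: st).length ≤ D := by simp [extra] at hl ⊢; omega
    obtain ⟨a1, ha1, hst1⟩ := ih1 a0 b0 (s :: st) ha hb hs' (by simp [extra] at hl ⊢; omega)
    obtain ⟨a2, ha2, hst2⟩ := ih2 a1 b' st ha1 e1.sz_res hs hl
    refine ⟨a2, ha2, ?_⟩
    have t1 := Steps.one (p := p) (x := (g, false, true, a0, b0, s :: st)) rfl
      (sz_ms_le (D := D) ha hb hs' hl')
    have t2 := Steps.one (p := p) (x := (g, false, false, a1, b', s :: st)) rfl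
      (sz_ms_le (D := D) ha1 e1.sz_res hs' hl')
    have e : N + M + 2 = 1 + (N + (1 + M)) := by omega
    rw [e]
    refine Steps.trans t1 (Steps.trans ?_ (Steps.trans t2 ?_))
    · simpa [mstep, h1, mstart, lcase] using hst1
    · simpa [mstep, mstart, lcase] using hst2

theorem rec_runs (p : Proc G A S B) (h1 : PT (fun x : G × A => p.isBase x.1 x.2))
    (h2 : PT (fun x : G × A => p.base x.1 x.2)) (h3 : PT (fun x : G × A => p.init x.1 x.2))
    (h4 : PT (fun x : G × S => p.more x.1 x.2)) (h5 : PT (fun x : G × S => p.args x.1 x.2))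
    (h6 : PT (fun x : G × S × B => p.resume x.1 x.2.1 x.2.2))
    (h7 : PT (fun x : G × S => p.fin x.1 x.2)) :
    ∃ (c : Cmd) (P : ℕ[X]), ∀ (g : G) (a : A) (b0 b : B) (Bd d N : ℕ),
      Ev p g Bd d (Sum.inl a) b N → sz b0 ≤ Bd →
      Runs c (enc (g, a, b0)) (enc b) ((N + 1) * P.eval (sz g + (d + 2) * (Bd + 1) + 12)) := by
  have hstep : PT (mstep p) := by
    unfold mstep
    have k1 : PT (fun x : MS G A S B => p.isBase x.1 x.2.2.2.1) :=
      PT.comp (g := fun x : MS G A S B => (x.1, x.2.2.2.1)) h1 (by fun_prop)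
    have k2 : PT (fun x : MS G A S B => p.base x.1 x.2.2.2.1) :=
      PT.comp (g := fun x : MS G A S B => (x.1, x.2.2.2.1)) h2 (by fun_prop)
    have k3 : PT (fun x : MS G A S B => p.init x.1 x.2.2.2.1) :=
      PT.comp (g := fun x : MS G A S B => (x.1, x.2.2.2.1)) h3 (by fun_prop)
    have k4 : PT (fun y : MS G A S B × S × List S => p.more y.1.1 y.2.1) :=
      PT.comp (g := fun y : MS G A S B × S × List S => (y.1.1, y.2.1)) h4 (by fun_prop)
    have k5 : PT (fun y : MS G A S B × S × List S => p.args y.1.1 y.2.1) :=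
      PT.comp (g := fun y : MS G A S B × S × List S => (y.1.1, y.2.1)) h5 (by fun_prop)
    have k6 : PT (fun y : MS G A S B × S × List S => p.resume y.1.1 y.2.1 y.1.2.2.2.2.1) :=
      PT.comp (g := fun y : MS G A S B × S × List S => (y.1.1, y.2.1, y.1.2.2.2.2.1)) h6
        (by fun_prop)
    have k7 : PT (fun y : MS G A S B × S × List S => p.fin y.1.1 y.2.1) :=
      PT.comp (g := fun y : MS G A S B × S × List S => (y.1.1, y.2.1)) h7 (by fun_prop)
    refine PT.cond (by fun_prop) (PT.cond k1 ?_ ?_) (PT.lcase (by fun_prop) (by fun_prop)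
      (PT.cond (by fun_prop) (PT.cond k4 ?_ ?_) ?_))
    · exact PT.pair (by fun_prop) (PT.pair (by fun_prop) (PT.pair (by fun_prop)
        (PT.pair (by fun_prop) (PT.pair k2 (by fun_prop)))))
    · exact PT.pair (by fun_prop) (PT.pair (by fun_prop) (PT.pair (by fun_prop)
        (PT.pair (by fun_prop) (PT.pair (by fun_prop) (PT.cons k3 (by fun_prop))))))
    · exact PT.pair (by fun_prop) (PT.pair (by fun_prop) (PT.pair (by fun_prop)
        (PT.pair k5 (by fun_prop))))
    · exact PT.pair (by fun_prop) (PT.pair (by fun_prop) (PT.pair (by fun_prop)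
        (PT.pair (by fun_prop) (PT.pair k7 (by fun_prop)))))
    · exact PT.pair (by fun_prop) (PT.pair (by fun_prop) (PT.pair (by fun_prop)
        (PT.pair (by fun_prop) (PT.pair (by fun_prop) (PT.cons k6 (by fun_prop))))))
  have hgo : PT (mgo : MS G A S B → Bool) := by unfold mgo; fun_prop
  obtain ⟨c, P, hc⟩ := loop_runs hstep hgo
  obtain ⟨d, Q, hd⟩ : PT (fun x : G × A × B =>
    ((x.1, true, false, x.2.1, x.2.2, []) : MS G A S B)) := by fun_prop
  obtain ⟨e, R, he⟩ : PT (fun x : MS G A S B => x.2.2.2.2.1) := by fun_prop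
  refine ⟨Cmd.seq d (Cmd.seq c e), P + Q + R, fun g a b0 b Bd D N h hb => ?_⟩
  obtain ⟨a', ha', hs1, hs2⟩ := h.steps (D := D) a b0 [] h.sz_arg hb (by simp) (by simp [extra])
  have hfin := sz_ms_le (g := g) (m1 := false) (m2 := false) (st := ([] : List S)) (D := D) ha'
    h.sz_res (by simp) (by simp)
  have k1 := hc (mstart g (Sum.inl a) a b0 []) N (sz g + (D + 2) * (Bd + 1) + 12)
    (fun i hi => (hs2 i hi).1) (by rw [hs1]; rfl) (fun i hi => by
      rcases Nat.lt_or_eq_of_le hi with hi | rfl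
      · exact (hs2 i hi).2
      · rw [hs1]; exact hfin)
  rw [hs1] at k1
  refine (runs_seq (hd (g, a, b0)) (runs_seq k1 (he _))).mono ?_
  have k2 := eval_mono R hfin
  have k3 : Q.eval (sz (g, a, b0)) ≤ Q.eval (sz g + (D + 2) * (Bd + 1) + 12) := by
    apply eval_mono
    have := h.sz_arg
    simp only [sz_pair]
    nlinarith
  simp only [eval_add]
  nlinarith [Nat.zero_le (N * Q.eval (sz g + (D + 2) * (Bd + 1) + 12)),
    Nat.zero_le (N * R.eval (sz g + (D + 2) * (Bd + 1) + 12))]

end Vale.Agent.Lib.H23
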