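import Vale.Agent.Lib.helper23.Cmd

/-! Commands acting on serialized binary trees. -/

namespace Vale.Agent.Lib.H23

inductive Tr : Type
  | nil : Tr
  | node : Tr → Tr → Tr

def ser : Tr → List Bool
  | Tr.nil => [false]
  | Tr.node a b => true :: (ser a ++ ser b)

def Tr.size (x : Tr) : ℕ := (ser x).length

@[simp] theorem Tr.size_nil : Tr.nil.size = 1 := rfl

@[simp] theorem Tr.size_node (a b : Tr) : (Tr.node a b).size = a.size + b.size + 1 := by
  simp [Tr.size, ser]

theorem Tr.size_pos (x : Tr) : 0 < x.size := by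
  cases x <;> simp

/-- `c` replaces the tree `x` on top of the main stack by `y` in at most `t` steps -/
def Runs (c : Cmd) (x y : Tr) (t : ℕ) : Prop :=
  ∀ r : List Bool, Exec c ⟨ser x ++ r, [], [], []⟩ ⟨ser y ++ r, [], [], []⟩ t

theorem Runs.mono {c : Cmd} {x y : Tr} {t t' : ℕ} (h : Runs c x y t) (ht : t ≤ t') :
    Runs c x y t' := fun r => (h r).mono ht

def St.total (S : St) : ℕ := S.m.length + S.a.length + S.b.length + S.c.length

theorem St.total_set (S : St) (k : K) (l : List Bool) :
    (S.set k l).total + (S.get k).length = S.total + l.length := by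
  cases k <;> simp [St.total, St.set, St.get] <;> omega

theorem Exec.total_le {c : Cmd} {S S' : St} {t : ℕ} (h : Exec c S S' t) :
    S'.total ≤ S.total + t := by
  induction h with
  | skip S => omega
  | push k x S => have := S.total_set k (x :: S.get k); simp at this; omega
  | seq _ _ ih1 ih2 => omega
  | br0 _ _ ih => omega
  | @brf k c0 cf ct S S' t l hk _ ih => have := S.total_set k l; rw [hk] at this; simp at this; omega
  | @brt k c0 cf ct S S' t l hk _ ih => have := S.total_set k l; rw [hk] at this; simp at this; omega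
  | loop0 _ => omega
  | @loopf k cf ct S S' S'' t t' l hk _ _ ih1 ih2 =>
    have := S.total_set k l; rw [hk] at this; simp at this; omega
  | @loopt k cf ct S S' S'' t t' l hk _ _ ih1 ih2 =>
    have := S.total_set k l; rw [hk] at this; simp at this; omega
  | mono _ ht ih => omega

theorem Runs.size_le {c : Cmd} {x y : Tr} {t : ℕ} (h : Runs c x y t) : y.size ≤ x.size + t := by
  have := (h []).total_le
  simpa [St.total, Tr.size] using this

def emit (pa pb x : Bool) : Cmd :=
  Cmd.seq (bif pa then Cmd.push K.a x else Cmd.skip) (bif pb then Cmd.push K.b x else Cmd.skip)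

theorem emit_exec (pa pb x : Bool) (M A B C : List Bool) :
    Exec (emit pa pb x) ⟨M, A, B, C⟩
      ⟨M, bif pa then x :: A else A, bif pb then x :: B else B, C⟩ 2 := by
  cases pa <;> cases pb
  · exact Exec.seq (Exec.skip _) (Exec.skip _)
  · exact Exec.seq (Exec.skip _) (Exec.push K.b x _)
  · exact Exec.seq (Exec.push K.a x _) (Exec.skip _)
  · exact Exec.seq (Exec.push K.a x _) (Exec.push K.b x _)

def parseLoop (pa pb : Bool) : Cmd :=
  Cmd.loop K.c Cmd.skip (Cmd.br K.m Cmd.skip (emit pa pb false)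
    (Cmd.seq (emit pa pb true) (Cmd.seq (Cmd.push K.c true) (Cmd.push K.c true))))

theorem parseLoop_exec (pa pb : Bool) (x : Tr) : ∀ (r A B C : List Bool) (S' : St) (t : ℕ),
    Exec (parseLoop pa pb) ⟨r, bif pa then (ser x).reverse ++ A else A,
      bif pb then (ser x).reverse ++ B else B, C⟩ S' t →
    Exec (parseLoop pa pb) ⟨ser x ++ r, A, B, true :: C⟩ S' (t + 6 * x.size) := by
  induction x with
  | nil =>
    intro r A B C S' t h
    have h1 : Exec (Cmd.br K.m Cmd.skip (emit pa pb false)
        (Cmd.seq (emit pa pb true) (Cmd.seq (Cmd.push K.c true) (Cmd.push K.c true))))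
        ⟨false :: r, A, B, C⟩ _ (2 + 1) := Exec.brf (l := r) rfl (emit_exec pa pb false r A B C)
    have h2 : Exec (parseLoop pa pb) ⟨false :: r, A, B, true :: C⟩ S' (2 + 1 + t + 1) :=
      Exec.loopt (l := C) rfl h1 (by cases pa <;> cases pb <;> exact h)
    exact h2.mono (by simp; omega)
  | node a b iha ihb =>
    intro r A B C S' t h
    have h1 : Exec (Cmd.br K.m Cmd.skip (emit pa pb false)
        (Cmd.seq (emit pa pb true) (Cmd.seq (Cmd.push K.c true) (Cmd.push K.c true))))
        ⟨true :: (ser a ++ (ser b ++ r)), A, B, C⟩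
        ⟨ser a ++ (ser b ++ r), bif pa then true :: A else A, bif pb then true :: B else B,
          true :: true :: C⟩ (2 + (1 + 1) + 1) :=
      Exec.brt (l := ser a ++ (ser b ++ r)) rfl
        (Exec.seq (emit_exec pa pb true _ A B C)
          (Exec.seq (Exec.push K.c true _) (Exec.push K.c true _)))
    have h3 := iha (ser b ++ r) (bif pa then true :: A else A) (bif pb then true :: B else B)
      (true :: C) S' _ (ihb r _ _ C S' t (by
        cases pa <;> cases pb <;> simpa [ser] using h))
    have h2 : Exec (parseLoop pa pb) ⟨true :: (ser a ++ (ser b ++ r)), A, B, true :: C⟩ S' _ :=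
      Exec.loopt (l := C) rfl h1 h3
    have e : ser (Tr.node a b) ++ r = true :: (ser a ++ (ser b ++ r)) := by simp [ser]
    rw [e]
    exact h2.mono (by simp; omega)

def parse (pa pb : Bool) : Cmd := Cmd.seq (Cmd.push K.c true) (parseLoop pa pb)

theorem parse_exec (pa pb : Bool) (x : Tr) (r A B : List Bool) :
    Exec (parse pa pb) ⟨ser x ++ r, A, B, []⟩ ⟨r, bif pa then (ser x).reverse ++ A else A,
      bif pb then (ser x).reverse ++ B else B, []⟩ (6 * x.size + 2) :=
  (Exec.seq (Exec.push K.c true _) (parseLoop_exec pa pb x r A B [] _ 1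
    (Exec.loop0 rfl))).mono (by omega)

def backA : Cmd := Cmd.loop K.a (Cmd.push K.m false) (Cmd.push K.m true)
def backB : Cmd := Cmd.loop K.b (Cmd.push K.m false) (Cmd.push K.m true)

theorem backA_exec (A : List Bool) : ∀ (M B C : List Bool),
    Exec backA ⟨M, A, B, C⟩ ⟨A.reverse ++ M, [], B, C⟩ (2 * A.length + 1) := by
  induction A with
  | nil => intro M B C; exact Exec.loop0 rfl
  | cons x A ih =>
    intro M B C
    have e : (x :: A).reverse ++ M = A.reverse ++ (x :: M) := by simp
    rw [e]
    cases x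
    · exact Exec.mono (t := 1 + (2 * A.length + 1) + 1)
        (Exec.loopf (l := A) rfl (Exec.push K.m false _) (ih (false :: M) B C)) (by simp; omega)
    · exact Exec.mono (t := 1 + (2 * A.length + 1) + 1)
        (Exec.loopt (l := A) rfl (Exec.push K.m true _) (ih (true :: M) B C)) (by simp; omega)

theorem backB_exec (B : List Bool) : ∀ (M A C : List Bool),
    Exec backB ⟨M, A, B, C⟩ ⟨B.reverse ++ M, A, [], C⟩ (2 * B.length + 1) := by
  induction B with
  | nil => intro M A C; exact Exec.loop0 rfl
  | cons x B ih =>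
    intro M A C
    have e : (x :: B).reverse ++ M = B.reverse ++ (x :: M) := by simp
    rw [e]
    cases x
    · exact Exec.mono (t := 1 + (2 * B.length + 1) + 1)
        (Exec.loopf (l := B) rfl (Exec.push K.m false _) (ih (false :: M) A C)) (by simp; omega)
    · exact Exec.mono (t := 1 + (2 * B.length + 1) + 1)
        (Exec.loopt (l := B) rfl (Exec.push K.m true _) (ih (true :: M) A C)) (by simp; omega)

theorem backA_ser (x : Tr) (M B C : List Bool) :
    Exec backA ⟨M, (ser x).reverse ++ [], B, C⟩ ⟨ser x ++ M, [], B, C⟩ (2 * x.size + 1) := by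
  simpa [Tr.size] using backA_exec (ser x).reverse M B C

theorem backB_ser (x : Tr) (M A C : List Bool) :
    Exec backB ⟨M, A, (ser x).reverse ++ [], C⟩ ⟨ser x ++ M, A, [], C⟩ (2 * x.size + 1) := by
  simpa [Tr.size] using backB_exec (ser x).reverse M A C

def dupC : Cmd := Cmd.seq (parse true true) (Cmd.seq backA backB)

theorem dup_exec (x : Tr) (r : List Bool) :
    Exec dupC ⟨ser x ++ r, [], [], []⟩ ⟨ser x ++ (ser x ++ r), [], [], []⟩ (10 * x.size + 4) :=
  (Exec.seq (parse_exec true true x r [] [])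
    (Exec.seq (backA_ser x _ _ _) (backB_ser x _ _ _))).mono (by omega)

def swapC : Cmd := Cmd.seq (parse true false) (Cmd.seq (parse false true) (Cmd.seq backA backB))

theorem swap_exec (x y : Tr) (r : List Bool) :
    Exec swapC ⟨ser x ++ (ser y ++ r), [], [], []⟩ ⟨ser y ++ (ser x ++ r), [], [], []⟩
      (8 * x.size + 8 * y.size + 6) :=
  (Exec.seq (parse_exec true false x _ [] []) (Exec.seq (parse_exec false true y r _ [])
    (Exec.seq (backA_ser x _ _ _) (backB_ser y _ _ _)))).mono (by omega)

theorem runs_skip (x : Tr) : Runs Cmd.skip x x 1 := fun _ => Exec.skip _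

theorem runs_seq {c d : Cmd} {x y z : Tr} {t t' : ℕ} (h : Runs c x y t) (h' : Runs d y z t') :
    Runs (Cmd.seq c d) x z (t + t') := fun r => Exec.seq (h r) (h' r)

def nilC : Cmd := Cmd.seq (parse false false) (Cmd.push K.m false)

theorem runs_nil (x : Tr) : Runs nilC x Tr.nil (6 * x.size + 3) := fun r =>
  Exec.mono (t := 6 * x.size + 2 + 1)
    (Exec.seq (parse_exec false false x r [] []) (Exec.push K.m false _)) le_rfl

def fstC : Cmd :=
  Cmd.br K.m Cmd.skip Cmd.skip (Cmd.seq (parse true false) (Cmd.seq (parse false false) backA))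

theorem runs_fst (x y : Tr) : Runs fstC (Tr.node x y) x (8 * (Tr.node x y).size) := by
  intro r
  have e : ser (Tr.node x y) ++ r = true :: (ser x ++ (ser y ++ r)) := by simp [ser]
  rw [e]
  exact (Exec.brt (l := ser x ++ (ser y ++ r)) rfl (Exec.seq (parse_exec true false x _ [] [])
    (Exec.seq (parse_exec false false y r _ []) (backA_ser x _ _ _)))).mono (by simp; omega)

def sndC : Cmd := Cmd.br K.m Cmd.skip Cmd.skip (parse false false)

theorem runs_snd (x y : Tr) : Runs sndC (Tr.node x y) y (8 * (Tr.node x y).size) := by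
  intro r
  have e : ser (Tr.node x y) ++ r = true :: (ser x ++ (ser y ++ r)) := by simp [ser]
  rw [e]
  exact (Exec.brt (l := ser x ++ (ser y ++ r)) rfl (parse_exec false false x _ [] [])).mono
    (by simp; omega)

def pairC (P Q : Cmd) : Cmd :=
  Cmd.seq dupC (Cmd.seq Q (Cmd.seq swapC (Cmd.seq P (Cmd.push K.m true))))

theorem runs_pair {P Q : Cmd} {x y z : Tr} {t t' : ℕ} (h : Runs P x y t) (h' : Runs Q x z t') :
    Runs (pairC P Q) x (Tr.node y z) (t + 9 * t' + 26 * x.size + 11) := by
  intro r
  have e : ser (Tr.node y z) ++ r = true :: (ser y ++ (ser z ++ r)) := by simp [ser]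
  rw [e]
  have := h'.size_le
  exact (Exec.seq (dup_exec x r) (Exec.seq (h' _) (Exec.seq (swap_exec z x r)
    (Exec.seq (h _) (Exec.push K.m true _))))).mono (by omega)

def caseC (Q R : Cmd) : Cmd :=
  Cmd.br K.m Cmd.skip Cmd.skip (Cmd.br K.m Cmd.skip Q
    (Cmd.seq (Cmd.push K.m true) (Cmd.seq (Cmd.push K.m true) R)))

theorem runs_case_nil {Q R : Cmd} {b y : Tr} {t : ℕ} (h : Runs Q b y t) :
    Runs (caseC Q R) (Tr.node Tr.nil b) y (t + 2) := by
  intro r
  have e : ser (Tr.node Tr.nil b) ++ r = true :: false :: (ser b ++ r) := by simp [ser]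
  rw [e]
  exact Exec.brt (l := false :: (ser b ++ r)) rfl (Exec.brf (l := ser b ++ r) rfl (h r))

theorem runs_case_node {Q R : Cmd} {u w b y : Tr} {t : ℕ}
    (h : Runs R (Tr.node (Tr.node u w) b) y t) :
    Runs (caseC Q R) (Tr.node (Tr.node u w) b) y (t + 4) := by
  intro r
  have h1 := h r
  have e : ser (Tr.node (Tr.node u w) b) ++ r = true :: true :: (ser u ++ (ser w ++ (ser b ++ r))) := by
    simp [ser]
  rw [e] at h1 ⊢
  exact (Exec.brt (l := true :: (ser u ++ (ser w ++ (ser b ++ r)))) rfl
    (Exec.brt (l := ser u ++ (ser w ++ (ser b ++ r))) rfl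
      (Exec.seq (Exec.push K.m true _) (Exec.seq (Exec.push K.m true _) h1)))).mono (by omega)

def loopBody (P : Cmd) : Cmd :=
  Cmd.loop K.c Cmd.skip (Cmd.br K.m Cmd.skip Cmd.skip (Cmd.br K.m Cmd.skip Cmd.skip
    (Cmd.seq (Cmd.push K.m true) (Cmd.seq (Cmd.push K.m true) (Cmd.seq P (Cmd.push K.c true))))))

def loopC (P : Cmd) : Cmd := Cmd.seq (Cmd.push K.c true) (loopBody P)

/-- iteration of `P` while the first component is not `nil` -/
inductive Iter (P : Cmd) : Tr → Tr → ℕ → Prop
  | stop (b : Tr) : Iter P (Tr.node Tr.nil b) b 5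
  | go {u w b x z : Tr} {t t' : ℕ} : Runs P (Tr.node (Tr.node u w) b) x t → Iter P x z t' →
      Iter P (Tr.node (Tr.node u w) b) z (t + t' + 6)

theorem iter_exec {P : Cmd} {x z : Tr} {t : ℕ} (h : Iter P x z t) (r : List Bool) :
    Exec (loopBody P) ⟨ser x ++ r, [], [], [true]⟩ ⟨ser z ++ r, [], [], []⟩ t := by
  induction h with
  | stop b =>
    have e : ser (Tr.node Tr.nil b) ++ r = true :: false :: (ser b ++ r) := by simp [ser]
    rw [e]
    exact Exec.mono (t := 1 + 1 + 1 + 1 + 1)
      (Exec.loopt (l := []) rfl (Exec.brt (l := false :: (ser b ++ r)) rfl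
      (Exec.brf (l := ser b ++ r) rfl (Exec.skip _))) (Exec.loop0 rfl)) le_rfl
  | @go u w b x z t t' h1 _ ih =>
    have h2 := h1 r
    have e : ser (Tr.node (Tr.node u w) b) ++ r =
        true :: true :: (ser u ++ (ser w ++ (ser b ++ r))) := by simp [ser]
    rw [e] at h2 ⊢
    exact Exec.mono (t := 1 + (1 + (t + 1)) + 1 + 1 + t' + 1)
      (Exec.loopt (l := []) rfl (Exec.brt (l := true :: (ser u ++ (ser w ++ (ser b ++ r)))) rfl
      (Exec.brt (l := ser u ++ (ser w ++ (ser b ++ r))) rfl
        (Exec.seq (Exec.push K.m true _) (Exec.seq (Exec.push K.m true _)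
          (Exec.seq h2 (Exec.push K.c true _)))))) ih) (by omega)

theorem runs_loop {P : Cmd} {x z : Tr} {t : ℕ} (h : Iter P x z t) : Runs (loopC P) x z (t + 1) :=
  fun r => (Exec.seq (Exec.push K.c true _) (iter_exec h r)).mono (by omega)

end Vale.Agent.Lib.H23
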